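import Vale.Agent.P088.R2.H31.EP.Pack
import Vale.Agent.P088.R2.H867.EP.Inst
import Vale.Agent.P088.R2.H932.EP.CutM
import Vale.Agent.P088.R2.H509.EP.Rad

/-!
# P088, stage 3, EST': the literal partition for the package

`d.ch q k` is the cut-off of the zone `k`.
-/

open Set Filter
open scoped ContDiff Topology

noncomputable section

namespace Vale.Agent.P088.R2.H31.EP

open Vale.Agent.P088.LR Vale.Agent.P088.HY
open Vale.Agent.P088.R2.H464.Cu (mid dif rq)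
open Vale.Agent.P088.R2.H867.EP

variable {n : ℕ}

/-! ## Radii -/

/-- The first radius `r ≥ 1` with `r (L - 1) ≤ t L` (`Li = 4/5`, `dp = 1/10`). -/
def prP (e₁ t : ℝ) : ℝ := H509.Rad.pr e₁ rp t

/-- The cut `rp` (tubes | passes). -/
def Cst.p₁ (q : Cst) : ℝ := prP q.e₁ (1 / 4)
def Cst.p₂ (q : Cst) : ℝ := prP q.e₁ (1 / 9)

/-- The ratio of the core cut. -/
def Cst.Λ (q : Cst) : ℝ := Real.exp (1 / q.ηc)

/-! ## The core -/

/-- The constant of the function `ξ`. -/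
def cXi : ℝ := H932.EP.exists_xi.choose

/-- `u` from which on both points are outside of the ball `|x| ≤ 2 R`. -/
def Pk.uf (d : Pk n) (q : Cst) : ℝ := 2 * d.l₀ q + 212 / 100 * q.R

/-- `1` for `u ≤ uf`, `e^(-3 (u - uf))` for `u ≥ uf + 1`. -/
def Pk.ξ (d : Pk n) (q : Cst) : ℝ → ℝ := (H932.EP.exists_xi.choose_spec.2 (d.uf q)).choose

theorem cXi_nonneg : 0 ≤ cXi := H932.EP.exists_xi.choose_spec.1

theorem Pk.ξ_is (d : Pk n) (q : Cst) : H932.EP.IsXi cXi (d.uf q) (d.ξ q) :=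
  (H932.EP.exists_xi.choose_spec.2 (d.uf q)).choose_spec

/-- `m₁ = (e^(-.26 u) + (σ / (CB R)) ξ(u))⁻¹`. -/
def Pk.m₁ (d : Pk n) (q : Cst) : ℝ → ℝ := H932.EP.m1x (q.σ / (q.CB * q.R)) (d.ξ q)

/-- The variable of the cut `rs`: `Φ' ≥ nm e^u` and `u ≥ uth`. -/
def Pk.VS (d : Pk n) (q : Cst) (u : ℝ) : ℝ :=
  Real.smoothTransition (Real.log (deriv d.Φ u) - u - Real.log q.nm) *
    Real.smoothTransition (u - d.uth q)

/-- The parameters of the cuts. -/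
def Pk.cp (d : Pk n) (q : Cst) : CP where
  VS := d.VS q
  q₁ := prR q.e₁
  q₂ := prR q.e₁ + 1
  c₀ := q.c₀
  u₀ := -Real.log q.aC
  w₀ := Real.log 2
  V₀ u := u - Real.log (deriv d.Φ u)
  uB := 0
  wB := Real.log 2
  VB u := u - 13 / 5 * Real.log (deriv d.Φ u)
  ct := q.cK
  K := deriv (deriv d.Φ)
  Λ := q.Λ
  M₁ := d.m₁ q
  r₁ := 3 / 2 * q.p₁
  r₂ := 2 * q.p₁
  p₁ := q.p₁
  p₂ := q.p₂

/-! ## The tubes -/

/-- `l(x) + l(y)`. -/
def Pk.u0 (d : Pk n) (z : VV n) : ℝ := d.l z.1 + d.l z.2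

/-- `|x - y|²`. -/
def qq (z : VV n) : ℝ := HY.sq (z.1 - z.2)

/-- The stiff part of the flat weight. -/
def Pk.G0 (d : Pk n) (q : Cst) (z : VV n) : ℝ := Real.exp (d.u0 z) * prS q.e₁ (qq z)

/-- The flat weight. -/
def Pk.W0 (d : Pk n) (q : Cst) (z : VV n) : ℝ := d.Φ (d.u0 z) + d.G0 q z

/-- The scale of the gradient of the flat weight. -/
def Pk.NG (d : Pk n) (q : Cst) (z : VV n) : ℝ := deriv d.Φ (d.u0 z) + d.G0 q z

/-- The cut at `|W0_x| ~ t NG`: `≤ 0` iff `|W0_x| ≤ t NG / 2`, `≥ 1` iff `|W0_x| ≥ t NG`. -/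
def Pk.tx (d : Pk n) (q : Cst) (t : ℝ) (z : VV n) : ℝ :=
  (4 * (∑ i, dx i (d.W0 q) z ^ 2) / (t * d.NG q z) ^ 2 - 1) / 3

/-- The cut at `|W0_y| ~ t NG`. -/
def Pk.ty (d : Pk n) (q : Cst) (t : ℝ) (z : VV n) : ℝ :=
  (4 * (∑ i, dy i (d.W0 q) z ^ 2) / (t * d.NG q z) ^ 2 - 1) / 3

/-! ## Infinity -/

/-- The level in units of `R` above the sphere `gy = 0`. -/
def Pk.gl (d : Pk n) (q : Cst) (x : V n) : ℝ := (d.l x - d.l₀ q) / q.R

open Real (smoothTransition) in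
/-- The cut `inf`. -/
def Pk.tinf (d : Pk n) (q : Cst) (z : VV n) : ℝ :=
  smoothTransition (4 * qq z / (q.κ₁ * q.R) ^ 2 - 1) +
    smoothTransition (10 * (-(q.σ / q.R * d.u0 z) - 3 / 2)) +
    smoothTransition (20 * (d.u0 z - 2 * d.l₀ q) / q.R - 92)

open Real (smoothTransition) in
/-- The cut `hi`. -/
def Pk.thi (d : Pk n) (q : Cst) (z : VV n) : ℝ :=
  smoothTransition (20 * (d.u0 z - 2 * d.l₀ q) / q.R - 91) +
    smoothTransition (20 * d.gl q z.1 - 58) + smoothTransition (20 * d.gl q z.2 - 58)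

/-- The cut `fs`. -/
def Pk.tfs (d : Pk n) (q : Cst) (z : VV n) : ℝ :=
  (q.σ / q.R * (d.u0 z + 4 / 5 * √(q.R ^ 2 + qq z)) + 9 / 1000) / (3 / 1000)

/-! ## The partition -/

/-- The variables of the tubes (radius `rT`), of the passes (radius `4 rT`) and of infinity. -/
def Pk.X (d : Pk n) (q : Cst) : Cut → VV n → ℝ
  | .inf => d.tinf q
  | .hi => d.thi q
  | .fs => d.tfs q
  | .T1 => d.tx q q.rT
  | .T2 => d.ty q q.rT
  | .P1 => d.tx q (4 * q.rT)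
  | .P2 => d.ty q (4 * q.rT)
  | _ => fun _ => 0

/-- The cut variables. -/
def Pk.cv (d : Pk n) (q : Cst) : Cut → VV n → ℝ :=
  H867.EP.cv (d.cp q) (d.u q) (rq (gi d.s₁)) (d.X q)

/-- The steps. -/
def Fl : Cut → Bool → ℝ → ℝ := fun _ => fac

/-- **The cut-off of the zone `k`.** -/
def Pk.ch (d : Pk n) (q : Cst) (k : Zo) : VV n → ℝ := H867.EP.ch Fl (d.cv q) k

theorem Fl_pair (i : Cut) : Pair (Fl i) := fac_pair

/-- The constant of the steps. -/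
def BF : ℝ := (exists_PB cuts mem_cuts Fl_pair).choose

theorem Fl_PB : PB Fl BF := (exists_PB cuts mem_cuts Fl_pair).choose_spec

theorem Pk.ch_sum (d : Pk n) (q : Cst) (z : VV n) : ∑ k ∈ zos, d.ch q k z ^ 2 = 1 :=
  H867.EP.ch_sum Fl_pair _ z

end Vale.Agent.P088.R2.H31.EP
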