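import Vale.Agent.P088.R2.H509.EP.Lit2
import Vale.Agent.P088.R2.H404.INF.Cut

/-!
# P088, stage 3, EST': the literal sides of the leaves

`d.ch q k z ≠ 0` gives the inequalities between `u`, `r²`, `|W0_x|`, .. (one lemma for each cut).
-/

open Set Filter
open scoped ContDiff Topology Matrix

noncomputable section

namespace Vale.Agent.P088.R2.H31.EP

open Vale.Agent.P088.LR Vale.Agent.P088.HY
open Vale.Agent.P088.R2.H464.Cu (mid dif rq)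
open Vale.Agent.P088.R2.H867.EP

variable {n : ℕ} {q : Cst} {d : Pk n} {z : VV n} {k : Zo}

/-! ## helper404's variables -/

theorem Pk.tinf_eq (d : Pk n) (q : Cst) :
    d.tinf q = H404.INF.tinf q.κ₁ q.σ q.R (d.l₀ q) d.l := by
  funext z
  unfold Pk.tinf H404.INF.tinf Pk.u0 qq
  congr 2
  congr 1
  ring

theorem Pk.thi_eq (d : Pk n) (q : Cst) : d.thi q = H404.INF.thi q.R (d.l₀ q) d.l := rfl

theorem Pk.tfs_eq (d : Pk n) (q : Cst) : d.tfs q = H404.INF.tfs q.σ q.R d.l := rfl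

/-- The level function has helper404's properties. -/
theorem EvC.lvG (n : ℕ) : EvC fun q => ∀ d : Pk n, PkOk q d →
    H404.INF.LvG q.σ q.R (d.l₀ q) (H475.gg n q.σ) d.l := by
  have h1 : EvC fun q => q.σ ≤ 1 / 5000 :=
    EvC.at_σ (fun _ t => t ≤ 1 / 5000) fun _ => sml_le (by norm_num)
  have h2 : EvC fun q => q.η ≤ 1 / 200 :=
    EvC.at_η (fun _ t => t ≤ 1 / 200) fun _ => sml_le (by norm_num)
  refine ((EvC.pos.and h1).and h2).mono ?_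
  rintro q ⟨⟨⟨a1, ⟨b1, b2, b3⟩, c1, c2, c3, c4, c5, c6⟩, h1⟩, h2⟩ d h
  have hR : 0 < q.R := by linarith
  have e0 : d.l₀ q = H475.lam0 q.R d.kap d.Gs := rfl
  have hk : q.R ≤ d.kap := by
    refine le_trans ?_ h.kC
    calc q.R = q.R ^ (1 : ℝ) := (Real.rpow_one _).symm
      _ ≤ q.R ^ q.Ck := Real.rpow_le_rpow_of_exponent_le c6 c5
  have hk0 : 0 < d.kap := by linarith
  have h3 : 0 ≤ Real.log (d.kap / q.R) := Real.log_nonneg (by rw [le_div_iff₀ hR]; linarith)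
  have h4 : Real.log (d.kap / q.R) ≤ q.η * q.R := by
    rw [Real.log_div hk0.ne' hR.ne']
    have h5 : Real.log d.kap ≤ q.η * q.R := by
      rw [Real.log_le_iff_le_exp hk0]
      exact h.kη
    linarith [Real.log_nonneg c6]
  have h5 : q.R * d.Gs ≤ 0 := mul_nonpos_of_nonneg_of_nonpos hR.le h.G0
  have h6 : -(q.η * q.R) ≤ q.R * d.Gs := by nlinarith [h.G1]
  refine ⟨H404.INF.glv_gg b2 h1, fun x => ?_, b2, h1, hR, ?_, ?_⟩
  · rw [h.lev.lit, H475.levG_eq, e0]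
  · show 0 ≤ Real.log (d.kap / q.R) - q.R * d.Gs
    linarith
  · show Real.log (d.kap / q.R) - q.R * d.Gs ≤ 1 / 100 * q.R
    nlinarith

/-! ## The sides -/

section side

theorem alive_iff : Alive Fl (d.cv q) k z ↔ d.ch q k z ≠ 0 := Iff.rfl

/-- All leaves which are not at infinity. -/
theorem sd_fin (h : d.ch q k z ≠ 0) (hk : ¬Inf k) (h1 : 0 < q.κ₁) (h2 : 0 < q.σ)
    (h3 : 0 < q.R) : qq z < (q.κ₁ * q.R) ^ 2 / 2 ∧ -(8 / 5) * (q.R / q.σ) < d.u0 z ∧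
      d.u0 z < 2 * d.l₀ q + 93 / 20 * q.R := by
  have h4 : d.tinf q z < 1 := alive_fin Fl_pair h hk
  rw [d.tinf_eq q] at h4
  exact H404.INF.tinf_lt h1 h2 h3 h4

/-- All leaves which are not at infinity: helper404's facts. -/
theorem sd_near (h : d.ch q k z ≠ 0) (hk : ¬Inf k) (h1 : 0 < q.κ₁) (h2 : q.κ₁ ≤ 1 / 50)
    (hl : H404.INF.LvG q.σ q.R (d.l₀ q) (H475.gg n q.σ) d.l) :
    H404.INF.NearOk q.κ₁ q.σ q.R (d.l₀ q) (H475.gg n q.σ) d.l z := by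
  have h4 : d.tinf q z < 1 := alive_fin Fl_pair h hk
  rw [d.tinf_eq q] at h4
  exact H404.INF.near_alive hl h1 h2 h4

theorem sd_inf (h : d.ch q k z ≠ 0) (hk : Inf k) (h1 : 0 < q.κ₁) (h2 : 0 < q.σ)
    (h3 : 0 < q.R) : (q.κ₁ * q.R) ^ 2 / 4 < qq z ∨ d.u0 z < -(3 / 2) * (q.R / q.σ) ∨
      2 * d.l₀ q + 23 / 5 * q.R < d.u0 z := by
  have h4 : 0 < d.tinf q z := alive_inf Fl_pair h hk
  rw [d.tinf_eq q] at h4
  exact H404.INF.tinf_pos h1 h2 h3 h4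

theorem sd_iH (h : d.ch q .iH z ≠ 0) (h3 : 0 < q.R) :
    2 * d.l₀ q + 91 / 20 * q.R < d.u0 z ∨ d.l₀ q + 29 / 10 * q.R < d.l z.1 ∨
      d.l₀ q + 29 / 10 * q.R < d.l z.2 := by
  have h4 : 0 < d.thi q z := alive_iH Fl_pair h
  exact H404.INF.thi_pos h3 h4

theorem sd_iF (h : d.ch q .iF z ≠ 0) (h3 : 0 < q.R) :
    (d.u0 z < 2 * d.l₀ q + 23 / 5 * q.R ∧ d.l z.1 < d.l₀ q + 59 / 20 * q.R ∧
      d.l z.2 < d.l₀ q + 59 / 20 * q.R) ∧
    -(9 / 1000) < q.σ / q.R * (d.u0 z + 4 / 5 * √(q.R ^ 2 + qq z)) :=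
  ⟨H404.INF.thi_lt h3 (alive_iF Fl_pair h).1, H404.INF.tfs_pos (alive_iF Fl_pair h).2⟩

theorem sd_iS (h : d.ch q .iS z ≠ 0) (h3 : 0 < q.R) :
    (d.u0 z < 2 * d.l₀ q + 23 / 5 * q.R ∧ d.l z.1 < d.l₀ q + 59 / 20 * q.R ∧
      d.l z.2 < d.l₀ q + 59 / 20 * q.R) ∧
    q.σ / q.R * (d.u0 z + 4 / 5 * √(q.R ^ 2 + qq z)) < -(6 / 1000) :=
  ⟨H404.INF.thi_lt h3 (alive_iS Fl_pair h).1, H404.INF.tfs_lt (alive_iS Fl_pair h).2⟩

/-- `RSn`, `RSf`: `N > nm E` and `u > uth`. -/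
theorem sd_RS (h : d.ch q k z ≠ 0) (hk : RS k) (hnm : 0 < q.nm)
    (hN : 0 < d.N q z) : q.nm * d.E q z < d.N q z ∧ d.uth q < d.u q z := by
  have h1 : 0 < d.VS q (d.u q z) := alive_RS Fl_pair h hk
  unfold Pk.VS at h1
  have a1 := Real.smoothTransition.nonneg
    (Real.log (deriv d.Φ (d.u q z)) - d.u q z - Real.log q.nm)
  have a2 := Real.smoothTransition.nonneg (d.u q z - d.uth q)
  have b1 : 0 < Real.smoothTransition
      (Real.log (deriv d.Φ (d.u q z)) - d.u q z - Real.log q.nm) := by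
    rcases a1.lt_or_eq with h2 | h2
    · exact h2
    · rw [← h2, zero_mul] at h1
      exact absurd h1 (lt_irrefl _)
  have b2 : 0 < Real.smoothTransition (d.u q z - d.uth q) := by
    rcases a2.lt_or_eq with h2 | h2
    · exact h2
    · rw [← h2, mul_zero] at h1
      exact absurd h1 (lt_irrefl _)
  have c1 := H404.INF.st_pos b1
  have c2 := H404.INF.st_pos b2
  refine ⟨?_, by linarith⟩
  have c3 : Real.log (q.nm * d.E q z) < Real.log (d.N q z) := by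
    unfold Pk.E
    rw [Real.log_mul hnm.ne' (Real.exp_pos _).ne', Real.log_exp]
    unfold Pk.N
    linarith
  exact (Real.log_lt_log_iff (mul_pos hnm (Real.exp_pos _)) hN).1 c3

/-- The other leaves (not at infinity): `N < e nm E` or `u < uth + 1`. -/
theorem sd_nRS (h : d.ch q k z ≠ 0) (hk : Near k ∨ Off k) (hnm : 0 < q.nm)
    (hN : 0 < d.N q z) : d.N q z < Real.exp 1 * (q.nm * d.E q z) ∨ d.u q z < d.uth q + 1 := by
  have h1 : d.VS q (d.u q z) < 1 := alive_nRS Fl_pair h hk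
  unfold Pk.VS at h1
  by_contra hc
  push Not at hc
  obtain ⟨c1, c2⟩ := hc
  have b2 : 1 ≤ d.u q z - d.uth q := by linarith
  have b1 : 1 ≤ Real.log (deriv d.Φ (d.u q z)) - d.u q z - Real.log q.nm := by
    have hE : 0 < q.nm * d.E q z := mul_pos hnm (Real.exp_pos _)
    have c3 := Real.log_le_log (mul_pos (Real.exp_pos _) hE) c1
    rw [Real.log_mul (Real.exp_pos _).ne' hE.ne', Real.log_exp] at c3
    have c4 : Real.log (q.nm * d.E q z) = Real.log q.nm + d.u q z := by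
      unfold Pk.E
      rw [Real.log_mul hnm.ne' (Real.exp_pos _).ne', Real.log_exp]
    rw [c4] at c3
    have c5 : Real.log (d.N q z) = Real.log (deriv d.Φ (d.u q z)) := rfl
    linarith
  rw [Real.smoothTransition.one_of_one_le b1, Real.smoothTransition.one_of_one_le b2] at h1
  norm_num at h1

/-- Near the diagonal: `r ≤ 2 c₀`. -/
theorem sd_r (h : d.ch q k z ≠ 0) (hk : Near k) (hP : (d.cp q).Ok) :
    d.r2 z ≤ 4 * q.c₀ ^ 2 := alive_r Fl_pair hP h hk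

/-- Off the diagonal: `c₀ ≤ r`. -/
theorem sd_off (h : d.ch q k z ≠ 0) (hk : Off k) (hP : (d.cp q).Ok) :
    q.c₀ ^ 2 ≤ d.r2 z := alive_off Fl_pair hP h hk

theorem sd_RSn (h : d.ch q .RSn z ≠ 0) (hP : (d.cp q).Ok) : d.r2 z ≤ (prR q.e₁ + 1) ^ 2 :=
  alive_RSn Fl_pair hP h

theorem sd_RSf (h : d.ch q .RSf z ≠ 0) (hP : (d.cp q).Ok) : prR q.e₁ ^ 2 ≤ d.r2 z :=
  alive_RSf Fl_pair hP h

theorem sd_Af (h : d.ch q .Af z ≠ 0) (hP : (d.cp q).Ok) : (3 / 2 * q.p₁) ^ 2 ≤ d.r2 z :=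
  alive_Af Fl_pair hP h

theorem sd_nf (h : d.ch q k z ≠ 0) (hk : Off k) (h0 : k ≠ .Af) (hP : (d.cp q).Ok) :
    d.r2 z ≤ (2 * q.p₁) ^ 2 := alive_nf Fl_pair hP h hk h0

theorem sd_T (h : d.ch q k z ≠ 0) (hk : k = .T1 ∨ k = .T2 ∨ k = .A1) (hP : (d.cp q).Ok) :
    d.r2 z ≤ q.p₂ ^ 2 := alive_T Fl_pair hP h hk

theorem sd_P (h : d.ch q k z ≠ 0) (hk : k = .P1 ∨ k = .P2 ∨ k = .A2) (hP : (d.cp q).Ok) :
    q.p₁ ^ 2 ≤ d.r2 z := alive_P Fl_pair hP h hk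

/-- `z0`: `aC E ≤ 2 N`. -/
theorem sd_z0 (h : d.ch q .z0 z ≠ 0) (hP : (d.cp q).Ok) (ha : 0 < q.aC) (hN : 0 < d.N q z) :
    q.aC * d.E q z ≤ 2 * d.N q z := by
  have h1 : d.u q z - Real.log (d.N q z) ≤ -Real.log q.aC + Real.log 2 := alive_z0 Fl_pair hP h
  have h2 : Real.log (q.aC * d.E q z) ≤ Real.log (2 * d.N q z) := by
    unfold Pk.E
    rw [Real.log_mul ha.ne' (Real.exp_pos _).ne', Real.log_exp,
      Real.log_mul (by norm_num) hN.ne']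
    linarith
  exact (Real.log_le_log_iff (mul_pos ha (Real.exp_pos _)) (by positivity)).1 h2

/-- Near the diagonal, not `z0`: `N ≤ aC E`. -/
theorem sd_e0 (h : d.ch q k z ≠ 0) (hk : Near k) (h0 : k ≠ .z0) (hP : (d.cp q).Ok)
    (ha : 0 < q.aC) (hN : 0 < d.N q z) : d.N q z ≤ q.aC * d.E q z := by
  have h1 : -Real.log q.aC ≤ d.u q z - Real.log (d.N q z) := alive_e0 Fl_pair hP h hk h0
  have h2 : Real.log (d.N q z) ≤ Real.log (q.aC * d.E q z) := by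
    unfold Pk.E
    rw [Real.log_mul ha.ne' (Real.exp_pos _).ne', Real.log_exp]
    linarith
  exact (Real.log_le_log_iff hN (mul_pos ha (Real.exp_pos _))).1 h2

/-- `zI`, `z2a`: `E ≤ 2 N^(13/5)`. -/
theorem sd_C (h : d.ch q k z ≠ 0) (hk : k = .zI ∨ k = .z2a) (hP : (d.cp q).Ok)
    (hN : 0 < d.N q z) : d.E q z ≤ 2 * d.N q z ^ (13 / 5 : ℝ) := by
  have h1 : d.u q z - 13 / 5 * Real.log (d.N q z) ≤ 0 + Real.log 2 := alive_C Fl_pair hP h hk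
  have h3 : (0 : ℝ) < d.N q z ^ (13 / 5 : ℝ) := Real.rpow_pos_of_pos hN _
  have h2 : Real.log (d.E q z) ≤ Real.log (2 * d.N q z ^ (13 / 5 : ℝ)) := by
    unfold Pk.E
    rw [Real.log_exp, Real.log_mul (by norm_num) h3.ne', Real.log_rpow hN]
    linarith
  exact (Real.log_le_log_iff (Real.exp_pos _) (by positivity)).1 h2

/-- `zB`, `z2b`: `N^(13/5) ≤ E`. -/
theorem sd_B (h : d.ch q k z ≠ 0) (hk : k = .zB ∨ k = .z2b) (hP : (d.cp q).Ok)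
    (hN : 0 < d.N q z) : d.N q z ^ (13 / 5 : ℝ) ≤ d.E q z := by
  have h1 : 0 ≤ d.u q z - 13 / 5 * Real.log (d.N q z) := alive_B Fl_pair hP h hk
  have h3 : (0 : ℝ) < d.N q z ^ (13 / 5 : ℝ) := Real.rpow_pos_of_pos hN _
  have h2 : Real.log (d.N q z ^ (13 / 5 : ℝ)) ≤ Real.log (d.E q z) := by
    unfold Pk.E
    rw [Real.log_exp, Real.log_rpow hN]
    linarith
  exact (Real.log_le_log_iff h3 (Real.exp_pos _)).1 h2

/-- `zI`: `m ≤ 2 cK K`. -/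
theorem sd_zI (h : d.ch q .zI z ≠ 0) (hP : (d.cp q).Ok) :
    d.m q z ≤ 2 * (q.cK * d.Kf q z) := alive_zI Fl_pair hP h

/-- `z2a`: `cK K ≤ m`. -/
theorem sd_z2a (h : d.ch q .z2a z ≠ 0) (hP : (d.cp q).Ok) : q.cK * d.Kf q z ≤ d.m q z :=
  alive_z2a Fl_pair hP h

/-- `zB`: `m ≤ 2 Λ m₁`. -/
theorem sd_zB (h : d.ch q .zB z ≠ 0) (hP : (d.cp q).Ok) (h0 : 0 ≤ rq (gi d.s₁) z) :
    d.m q z ≤ 2 * q.Λ * d.m₁ q (d.u q z) := alive_zB Fl_pair hP h0 h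

/-- `z2b`: `m₁ ≤ m`. -/
theorem sd_z2b (h : d.ch q .z2b z ≠ 0) (hP : (d.cp q).Ok) (h0 : 0 ≤ rq (gi d.s₁) z) :
    d.m₁ q (d.u q z) ≤ d.m q z := alive_z2b Fl_pair hP h0 h

/-! ### The tubes -/

/-- `t NG / 2 < |W0_x|` and `|W0_x| < t NG`. -/
theorem tx_pos {t : ℝ} (ht : 0 < t) (hG : 0 < d.NG q z) (h : 0 < d.tx q t z) :
    (t * d.NG q z / 2) ^ 2 < ∑ i, dx i (d.W0 q) z ^ 2 := by
  unfold Pk.tx at h
  have h0 : 0 < (t * d.NG q z) ^ 2 := by positivity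
  have h1 : 1 < 4 * (∑ i, dx i (d.W0 q) z ^ 2) / (t * d.NG q z) ^ 2 := by linarith
  rw [lt_div_iff₀ h0] at h1
  nlinarith

theorem tx_lt {t : ℝ} (ht : 0 < t) (hG : 0 < d.NG q z) (h : d.tx q t z < 1) :
    ∑ i, dx i (d.W0 q) z ^ 2 < (t * d.NG q z) ^ 2 := by
  unfold Pk.tx at h
  have h0 : 0 < (t * d.NG q z) ^ 2 := by positivity
  have h1 : 4 * (∑ i, dx i (d.W0 q) z ^ 2) / (t * d.NG q z) ^ 2 < 4 := by linarith
  rw [div_lt_iff₀ h0] at h1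
  nlinarith

theorem ty_pos {t : ℝ} (ht : 0 < t) (hG : 0 < d.NG q z) (h : 0 < d.ty q t z) :
    (t * d.NG q z / 2) ^ 2 < ∑ i, dy i (d.W0 q) z ^ 2 := by
  unfold Pk.ty at h
  have h0 : 0 < (t * d.NG q z) ^ 2 := by positivity
  have h1 : 1 < 4 * (∑ i, dy i (d.W0 q) z ^ 2) / (t * d.NG q z) ^ 2 := by linarith
  rw [lt_div_iff₀ h0] at h1
  nlinarith

theorem ty_lt {t : ℝ} (ht : 0 < t) (hG : 0 < d.NG q z) (h : d.ty q t z < 1) :
    ∑ i, dy i (d.W0 q) z ^ 2 < (t * d.NG q z) ^ 2 := by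
  unfold Pk.ty at h
  have h0 : 0 < (t * d.NG q z) ^ 2 := by positivity
  have h1 : 4 * (∑ i, dy i (d.W0 q) z ^ 2) / (t * d.NG q z) ^ 2 < 4 := by linarith
  rw [div_lt_iff₀ h0] at h1
  nlinarith

variable (hT : 0 < q.rT) (hG : 0 < d.NG q z)

include hT hG

/-- `T1`: `|W0_x| < rT NG`. -/
theorem sd_T1 (h : d.ch q .T1 z ≠ 0) : ∑ i, dx i (d.W0 q) z ^ 2 < (q.rT * d.NG q z) ^ 2 :=
  tx_lt hT hG ((Alive.side Fl_pair h (i := .T1) (by decide)).2 (by decide))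

/-- `T2`, `A1`: `|W0_x| > rT NG / 2`. -/
theorem sd_nT1 (h : d.ch q k z ≠ 0) (hk : k = .T2 ∨ k = .A1) :
    (q.rT * d.NG q z / 2) ^ 2 < ∑ i, dx i (d.W0 q) z ^ 2 := by
  have h1 : Cut.T1 ∈ path k ∧ sd k .T1 = true := by
    rcases hk with rfl | rfl <;> decide
  exact tx_pos hT hG ((Alive.side Fl_pair h h1.1).1 h1.2)

/-- `T2`: `|W0_y| < rT NG`. -/
theorem sd_T2 (h : d.ch q .T2 z ≠ 0) : ∑ i, dy i (d.W0 q) z ^ 2 < (q.rT * d.NG q z) ^ 2 :=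
  ty_lt hT hG ((Alive.side Fl_pair h (i := .T2) (by decide)).2 (by decide))

/-- `A1`: `|W0_y| > rT NG / 2`. -/
theorem sd_A1 (h : d.ch q .A1 z ≠ 0) : (q.rT * d.NG q z / 2) ^ 2 < ∑ i, dy i (d.W0 q) z ^ 2 :=
  ty_pos hT hG ((Alive.side Fl_pair h (i := .T2) (by decide)).1 (by decide))

/-- `P1`: `|W0_x| < 4 rT NG`. -/
theorem sd_P1 (h : d.ch q .P1 z ≠ 0) : ∑ i, dx i (d.W0 q) z ^ 2 < (4 * q.rT * d.NG q z) ^ 2 :=
  tx_lt (by positivity) hG ((Alive.side Fl_pair h (i := .P1) (by decide)).2 (by decide))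

/-- `P2`, `A2`: `|W0_x| > 2 rT NG`. -/
theorem sd_nP1 (h : d.ch q k z ≠ 0) (hk : k = .P2 ∨ k = .A2) :
    (2 * q.rT * d.NG q z) ^ 2 < ∑ i, dx i (d.W0 q) z ^ 2 := by
  have h1 : Cut.P1 ∈ path k ∧ sd k .P1 = true := by
    rcases hk with rfl | rfl <;> decide
  have h2 := tx_pos (t := 4 * q.rT) (by positivity) hG ((Alive.side Fl_pair h h1.1).1 h1.2)
  convert h2 using 1
  ring

/-- `P2`: `|W0_y| < 4 rT NG`. -/
theorem sd_P2 (h : d.ch q .P2 z ≠ 0) : ∑ i, dy i (d.W0 q) z ^ 2 < (4 * q.rT * d.NG q z) ^ 2 :=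
  ty_lt (by positivity) hG ((Alive.side Fl_pair h (i := .P2) (by decide)).2 (by decide))

/-- `A2`: `|W0_y| > 2 rT NG`. -/
theorem sd_A2 (h : d.ch q .A2 z ≠ 0) : (2 * q.rT * d.NG q z) ^ 2 < ∑ i, dy i (d.W0 q) z ^ 2 := by
  have h2 := ty_pos (t := 4 * q.rT) (by positivity) hG
    ((Alive.side Fl_pair h (i := .P2) (by decide)).1 (by decide))
  convert h2 using 1
  ring

end side

end Vale.Agent.P088.R2.H31.EP
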