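import Vale.Agent.P088.R2.H509.EP.Win
import Vale.Agent.P088.R2.H710.EP.GQ
import Vale.Agent.P088.R2.H222.PkT

/-!
# P088, stage 3, EST': the tubes `T1`, `T2`

`evGT : EvC (GT n)`. For `c₀² / 4 ≤ |x - y|² ≤ p₃²` and `|W0_x| ≤ 2 rT NG` (or `|W0_y| ≤ ..`):
`e² ν₁ E ≤ Φ' ≤ e⁻² nm E`, so `u₀` is in one of the two windows, and there the cuts `inf`, `rs`,
`far` are off.
-/

open Set Filter
open scoped ContDiff Topology Matrix

noncomputable section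

namespace Vale.Agent.P088.R2.H509.TG

open Vale.Agent.P088.LR Vale.Agent.P088.HY Vale.Agent.P088.R2.H31.EP
open Vale.Agent.P088.R2.H710.GP Vale.Agent.P088.R2.H867.EP
open Vale.Agent.P088.R2.H404.INF (InfC evInf)
open Vale.Agent.P088.R2.H464.Cu (rq)

variable {n : ℕ} {q : Cst} {d : Pk n} {z : VV n} {e₁ s r t : ℝ}

/-! ## The profile -/

theorem S_mono (he : 0 < e₁) (hs : 0 ≤ s) (hst : s ≤ t) : prS e₁ s ≤ prS e₁ t := by
  have hm : MonotoneOn (prS e₁) (Ici 0) := by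
    refine monotoneOn_of_deriv_nonneg (convex_Ici 0)
      (fun v _ => (H606.EP.prS_d1 he v).continuousAt.continuousWithinAt)
      (fun v _ => (H606.EP.prS_d1 he v).differentiableAt.differentiableWithinAt) fun v hv => ?_
    rw [interior_Ici] at hv
    rw [(H606.EP.prS_d1 he v).deriv]
    exact ((H606.EP.pp_ok he).Ph1_pos (le_of_lt hv)).le
  exact hm hs (hs.trans hst) hst

theorem S_ge (he : 0 < e₁) (h0 : 0 ≤ r) (h1 : r ≤ 1) : r ^ 2 / 2 ≤ prS e₁ (r ^ 2) := by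
  have h2 := H606.EP.prS_eq he (s := r ^ 2) (by nlinarith)
  have h3 := H644.half_le_St_two (s := 4 * r ^ 2) (by positivity)
  rw [h2]
  nlinarith [sq_nonneg r]

theorem S_ge' (he : 0 < e₁) (h1 : 1 ≤ r) : 1 / 2 ≤ prS e₁ (r ^ 2) := by
  have h2 := S_ge he (r := 1) (by norm_num) le_rfl
  have h3 := S_mono he (s := 1 ^ 2) (t := r ^ 2) (by norm_num) (by nlinarith)
  refine le_trans ?_ (h2.trans h3)
  norm_num

theorem L_ge2 (hr : H509.Rad.Ok e₁ rp) (h0 : 0 < r) (h1 : r ≤ 1) : 2 ≤ prL e₁ r := by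
  have h2 : prL e₁ r = H644.Lz 2 r := hr.pp.Lf_eq h0 (h1.trans (by norm_num [rp]))
  rw [h2]
  exact H644.le_Lz (by norm_num) h0

/-! ## The constants -/

/-- The radius `p₃ > p₂`. -/
def p₃ (q : Cst) : ℝ := prP q.e₁ (1 / 10)

theorem p₂_lt (h : H509.Rad.Ok q.e₁ rp) : q.p₂ < p₃ q :=
  h.pr_lt (by norm_num) (by norm_num) (by norm_num)

theorem p₃_lt (h : H509.Rad.Ok q.e₁ rp) : p₃ q < 3 / 2 * q.p₁ :=
  h.pr_lt' (by norm_num) (by norm_num) (by norm_num) le_rfl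

theorem p₂_ge (h : H509.Rad.Ok q.e₁ rp) : 1 ≤ q.p₂ := h.one_le (by norm_num)

theorem p₃_ge (h : H509.Rad.Ok q.e₁ rp) : 1 ≤ p₃ q := h.one_le (by norm_num)

/-- The distance of the metrics. -/
def dT (q : Cst) : ℝ := min (1 / 4) (min (((3 / 2 * q.p₁) ^ 2 - p₃ q ^ 2) / (2 * p₃ q ^ 2))
  ((p₃ q ^ 2 - q.p₂ ^ 2) / (2 * p₃ q ^ 2)))

theorem dT_pos (h : H509.Rad.Ok q.e₁ rp) : 0 < dT q := by
  have h1 := p₂_lt h
  have h2 := p₃_lt h
  have h3 := p₂_ge h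
  have h4 := p₃_ge h
  have h5 : 0 < (3 / 2 * q.p₁) ^ 2 - p₃ q ^ 2 := by nlinarith
  have h6 : 0 < p₃ q ^ 2 - q.p₂ ^ 2 := by nlinarith
  exact lt_min (by norm_num) (lt_min (by positivity) (by positivity))

theorem dT_nb : NB_ε dT := fun _ => rfl

/-- The conditions on the constants. -/
structure GT (n : ℕ) (q : Cst) : Prop where
  gc : GC q
  wc : WC q
  c0 : 0 < q.c₀
  c1 : q.c₀ ≤ 1
  ν1 : Real.exp 2 * q.ν₁ ≤ q.c₀ ^ 2 / 16
  ν2 : Real.exp 2 * q.ν₁ ≤ 1 / (50 * p₃ q)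
  nm : ∀ r, 0 < r → r ≤ 2 * q.p₁ → 16 * (prL q.e₁ r * prS q.e₁ (r ^ 2)) ≤ q.nm
  R : 2 * p₃ q ≤ q.κ₁ * q.R
  met : ∀ d : Pk n, PkOk q d → ∀ z, |d.r2 z - qq z| ≤ dT q * qq z

theorem evGT (n : ℕ) : EvC (GT n) := by
  have h1 : EvC fun q => q.c₀ ≤ 1 := EvC.at_c₀ (fun _ t => t ≤ 1) fun _ => sml_le one_pos
  have h2 : EvC fun q => 0 < q.c₀ → Real.exp 2 * q.ν₁ ≤ q.c₀ ^ 2 / 16 :=
    EvC.at_ν₁ (fun q t => 0 < q.c₀ → Real.exp 2 * t ≤ q.c₀ ^ 2 / 16) fun q => by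
      by_cases h : 0 < q.c₀
      · refine (sml_le (a := q.c₀ ^ 2 / 16 / Real.exp 2) (by positivity)).mono fun t h1 _ => ?_
        rwa [le_div_iff₀ (Real.exp_pos _), mul_comm] at h1
      · exact Eventually.of_forall fun _ h1 => absurd h1 h
  have h3 : EvC fun q => 0 < p₃ q → Real.exp 2 * q.ν₁ ≤ 1 / (50 * p₃ q) :=
    EvC.at_ν₁ (fun q t => 0 < p₃ q → Real.exp 2 * t ≤ 1 / (50 * p₃ q)) fun q => by
      by_cases h : 0 < p₃ q
      · refine (sml_le (a := 1 / (50 * p₃ q) / Real.exp 2) (by positivity)).mono fun t h1 _ => ?_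
        rwa [le_div_iff₀ (Real.exp_pos _), mul_comm] at h1
      · exact Eventually.of_forall fun _ h1 => absurd h1 h
  have h4 : EvC fun q => H509.Rad.Ok q.e₁ rp → ∀ r, 0 < r → r ≤ 2 * q.p₁ →
      16 * (prL q.e₁ r * prS q.e₁ (r ^ 2)) ≤ q.nm :=
    EvC.at_nm (fun q t => H509.Rad.Ok q.e₁ rp → ∀ r, 0 < r → r ≤ 2 * q.p₁ →
      16 * (prL q.e₁ r * prS q.e₁ (r ^ 2)) ≤ t) fun q => by
      by_cases h : H509.Rad.Ok q.e₁ rp
      · obtain ⟨C, hC⟩ := LS_bdd q.e₁ h (2 * q.p₁)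
        refine (eventually_ge_atTop (16 * C)).mono fun t ht _ r h0 h1 => ?_
        linarith [hC r h0 h1]
      · exact Eventually.of_forall fun _ h1 => absurd h1 h
  have h5 : EvC fun q => 0 < q.κ₁ → 2 * p₃ q ≤ q.κ₁ * q.R :=
    EvC.at_R (fun q t => 0 < q.κ₁ → 2 * p₃ q ≤ q.κ₁ * t) fun q => by
      by_cases h : 0 < q.κ₁
      · exact ((tendsto_id.const_mul_atTop h).eventually_ge_atTop (2 * p₃ q)).mono
          fun _ h1 _ => h1
      · exact Eventually.of_forall fun _ h1 => absurd h1 h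
  have h6 : EvC fun q => 0 < dT q → ∀ d : Pk n, PkOk q d → _ := EvC.metric n dT dT_nb
  refine ((((evG.and EvC.wc).and EvC.pos).and (h1.and h2)).and ((h3.and h4).and (h5.and h6))).mono ?_
  rintro q ⟨⟨⟨⟨g, w⟩, p⟩, a1, a2⟩, ⟨a3, a4⟩, a5, a6⟩
  have hc : 0 < q.c₀ := p.1.2.2.2.2.2.1
  have hκ : 0 < q.κ₁ := p.2.1.1
  have hp := p₃_ge g.rad
  exact ⟨g, w, hc, a1, a2 hc, a3 (by linarith), a4 g.rad, a5 hκ, fun d h z =>
    (a6 (dT_pos g.rad) d h).2.2.2.2 z⟩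

/-! ## The region -/

/-- The region of the tubes. -/
structure TR (q : Cst) (d : Pk n) (z : VV n) : Prop where
  no : NO q d z
  q1 : q.c₀ ^ 2 / 4 ≤ qq z
  q2 : qq z ≤ p₃ q ^ 2
  g : en (gx d q z) ≤ 2 * q.rT * d.NG q z ∨ en (gy d q z) ≤ 2 * q.rT * d.NG q z

section core

variable (hq : GT n q) (h : PkOk q d)

include hq in
theorem TR.r0 (hz : TR q d z) : 0 < rr z := by
  have h1 := hz.q1
  rw [← rr_sq] at h1
  have h2 := hq.c0
  have h3 := rr_nn z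
  nlinarith

include hq in
theorem TR.r3 (hz : TR q d z) : rr z ≤ p₃ q := by
  have h1 := hz.q2
  rw [← rr_sq] at h1
  have h3 := p₃_ge hq.gc.rad
  exact (abs_le_of_sq_le_sq' h1 (by linarith)).2

include hq in
theorem TR.r1 (hz : TR q d z) : rr z ≤ 2 * q.p₁ := by
  have h1 := hz.r3 hq
  have h2 := p₃_lt hq.gc.rad
  have h3 := Cst.p₁_ge hq.gc.rad
  linarith

include hq h

theorem TR.tb (hz : TR q d z) : Tb q d z (2 * q.rT) := by
  have ht : 2 * q.rT ≤ 1 / 20 := by linarith [hq.gc.rT1]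
  rcases hz.g with hg | hg
  · exact tb_x hq.gc h hz.no (hz.r0 hq) (hz.r1 hq) ht hg
  · exact tb_y hq.gc h hz.no (hz.r0 hq) (hz.r1 hq) ht hg

/-- `NG ≤ (10/9) L G₀`. -/
theorem TR.NG_le (hz : TR q d z) : d.NG q z ≤ 10 / 9 * (prL q.e₁ (rr z) * d.G0 q z) := by
  have h1 := (hz.tb hq h).lo
  have h2 := hq.gc.rT1
  have h3 := hq.gc.σ1
  have h4 := NG_pos hq.gc h z
  nlinarith

/-- **The lower bound of the slope.** -/
theorem TR.lo (hz : TR q d z) :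
    Real.exp 2 * q.ν₁ * Real.exp (d.u0 z) ≤ deriv d.Φ (d.u0 z) := by
  have hr0 := hz.r0 hq
  have he := hq.gc.rad.e0
  have hT := hz.tb hq h
  have hN := hT.N_lo
  have hNG := NG_pos hq.gc h z
  have hG := PkOk.G0_nonneg (d := d) hq.gc.rad z
  have hle := hz.NG_le hq h
  have hrT := hq.gc.rT1
  have hrT0 := hq.gc.rT0
  have hσ := hq.gc.σ1
  have hE := Real.exp_pos (d.u0 z)
  have eG : d.G0 q z = Real.exp (d.u0 z) * prS q.e₁ (rr z ^ 2) := by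
    rw [rr_sq]
    rfl
  rcases le_total (rr z) 1 with h1 | h1
  · have hL := L_ge2 hq.gc.rad hr0 h1
    have hS := S_ge he hr0.le h1
    have k1 : (2 * q.rT + 3 * q.σ) * d.NG q z ≤
        1 / 80 * (prL q.e₁ (rr z) * d.G0 q z) := by
      have : 2 * q.rT + 3 * q.σ ≤ 3 / 400 := by linarith
      nlinarith
    have k2 : 1 / 2 * d.G0 q z ≤ deriv d.Φ (d.u0 z) := by
      have : 2 * d.G0 q z ≤ prL q.e₁ (rr z) * d.G0 q z := mul_le_mul_of_nonneg_right hL hG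
      linarith
    have k3 : q.c₀ ^ 2 / 16 * Real.exp (d.u0 z) ≤ 1 / 2 * d.G0 q z := by
      rw [eG]
      have h3 := hz.q1
      rw [← rr_sq] at h3
      nlinarith
    have k4 := mul_le_mul_of_nonneg_right hq.ν1 hE.le
    linarith
  · have hr3 := hz.r3 hq
    have hp3 := p₃_lt hq.gc.rad
    have hp1 := Cst.p₁_ge hq.gc.rad
    have hb : (1 : ℝ) / 10 ≤ H509.Rad.gr q.e₁ rp (rr z) := by
      rcases hr3.lt_or_eq with h2 | h2
      · exact (hq.gc.rad.before h1 h2).le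
      · rw [h2]
        exact (hq.gc.rad.gr_eq (by norm_num) (by norm_num)).ge
    have hL : 0 < prL q.e₁ (rr z) := hq.gc.rad.Lpos _
    have k1 : 1 / 10 * prL q.e₁ (rr z) ≤ rr z * (prL q.e₁ (rr z) - 1) := by
      have e : H509.Rad.gr q.e₁ rp (rr z) * prL q.e₁ (rr z) =
          rr z * (prL q.e₁ (rr z) - 1) := by
        unfold H509.Rad.gr
        have e2 : H509.Rad.Lr q.e₁ rp (rr z) = prL q.e₁ (rr z) := rfl
        rw [e2]
        field_simp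
      rw [← e]
      exact mul_le_mul_of_nonneg_right hb hL.le
    have k4 := mul_le_mul_of_nonneg_right k1 hG
    have k5 : 90 / 1000 * d.NG q z ≤ rr z * ((prL q.e₁ (rr z) - 1) * d.G0 q z) := by
      have : 90 / 100 * d.NG q z ≤ prL q.e₁ (rr z) * d.G0 q z := by linarith
      nlinarith
    have k6 : rr z * ((2 * q.rT + 3 * q.σ) * d.NG q z) ≤ 45 / 10000 * d.NG q z := by
      have h3 := hq.gc.rT3
      have h4 : rr z * (2 * q.rT + 3 * q.σ) ≤ 45 / 10000 := by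
        have h5 : rr z ≤ 3 / 2 * q.p₁ := by linarith
        have h6 : 2 * q.rT + 3 * q.σ ≤ 3 * q.rT := by linarith
        have h8 : 0 ≤ 3 * q.rT := by linarith
        calc rr z * (2 * q.rT + 3 * q.σ) ≤ rr z * (3 * q.rT) :=
              mul_le_mul_of_nonneg_left h6 hr0.le
          _ ≤ 3 / 2 * q.p₁ * (3 * q.rT) := mul_le_mul_of_nonneg_right h5 h8
          _ ≤ _ := by nlinarith
      calc rr z * ((2 * q.rT + 3 * q.σ) * d.NG q z) =
            (rr z * (2 * q.rT + 3 * q.σ)) * d.NG q z := by ring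
        _ ≤ _ := mul_le_mul_of_nonneg_right h4 hNG.le
    have k7 : 1 / 25 * d.NG q z ≤ rr z * deriv d.Φ (d.u0 z) := by
      have := mul_le_mul_of_nonneg_left hN hr0.le
      nlinarith
    have k8 : 1 / 25 * d.NG q z ≤ p₃ q * deriv d.Φ (d.u0 z) :=
      k7.trans (mul_le_mul_of_nonneg_right hr3 (h.N_pos hq.gc.M1 _).le)
    have k9 : 1 / 2 * Real.exp (d.u0 z) ≤ d.NG q z := by
      have h3 := S_ge' he h1
      have h4 := (h.N_pos hq.gc.M1 (d.u0 z)).le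
      unfold Pk.NG
      rw [eG]
      nlinarith
    have hp0 : 0 < p₃ q := by linarith [p₃_ge hq.gc.rad]
    have k10 : 1 / (50 * p₃ q) * Real.exp (d.u0 z) ≤ deriv d.Φ (d.u0 z) := by
      rw [div_mul_eq_mul_div, div_le_iff₀ (by positivity)]
      linarith
    exact (mul_le_mul_of_nonneg_right hq.ν2 hE.le).trans k10

/-- **The upper bound of the slope.** -/
theorem TR.up (hz : TR q d z) :
    Real.exp 2 * deriv d.Φ (d.u0 z) ≤ q.nm * Real.exp (d.u0 z) := by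
  have h1 := hz.NG_le hq h
  have h2 := hq.nm _ (hz.r0 hq) (hz.r1 hq)
  have hG := PkOk.G0_nonneg (d := d) hq.gc.rad z
  have hE := Real.exp_pos (d.u0 z)
  have eG : d.G0 q z = Real.exp (d.u0 z) * prS q.e₁ (rr z ^ 2) := by
    rw [rr_sq]
    rfl
  have k1 : deriv d.Φ (d.u0 z) ≤ d.NG q z := by unfold Pk.NG; linarith
  have k2 : d.NG q z ≤ 10 / 144 * (q.nm * Real.exp (d.u0 z)) := by
    rw [eG] at h1
    nlinarith
  have he2 : Real.exp 2 ≤ 8 := by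
    have h3 : Real.exp 2 = Real.exp 1 * Real.exp 1 := by
      rw [← Real.exp_add]
      norm_num
    have h4 := Real.exp_one_lt_d9
    have h5 := Real.exp_pos 1
    rw [h3]
    nlinarith
  have hN := h.N_pos hq.gc.M1 (d.u0 z)
  have hnE : 0 < q.nm * Real.exp (d.u0 z) := mul_pos hq.wc.nm hE
  nlinarith

/-- **The windows.** -/
theorem TR.win (hz : TR q d z) :
    (d.u0 z + 12 ≤ q.R ∧ d.u0 z + 2 ≤ d.uth q / 2 ∧ Win d (9 / 10) (d.u0 z)) ∨
      (d.uth q + 2 ≤ d.u0 z ∧ d.u0 z + 2 ≤ d.uta q ∧ Win d 2 (d.u0 z)) := by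
  have hL := H404.INF.lvG hq.gc.inf h
  have h1 : d.u0 z ≤ 2 * d.l₀ q + 93 / 20 * q.R := hz.no.up
  exact h.win hq.wc hL.l0 hL.l1 (by linarith) (hz.lo hq h) (hz.up hq h)

theorem TR.u_lt (hz : TR q d z) : d.u0 z + 2 ≤ 2 * d.l₀ q + 45 / 10 * q.R := by
  have hL := H404.INF.lvG hq.gc.inf h
  have hR := hq.wc.R
  rcases hz.win hq h with ⟨h1, -, -⟩ | ⟨-, h1, -⟩
  · linarith [hL.l0]
  · exact h1

end core

/-! ## The other cuts -/

theorem tinf_zero (hq : GT n q) (hq2 : qq z ≤ p₃ q ^ 2) (h0 : 0 ≤ d.u0 z)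
    (h1 : d.u0 z ≤ 2 * d.l₀ q + 23 / 5 * q.R) : d.tinf q z = 0 := by
  have hR : 0 < q.R := by linarith [hq.wc.R]
  have hκ := hq.gc.inf.κ0
  have hσ := hq.gc.inf.σ0
  have hp := p₃_ge hq.gc.rad
  have a1 : 4 * qq z / (q.κ₁ * q.R) ^ 2 - 1 ≤ 0 := by
    have h2 : (2 * p₃ q) ^ 2 ≤ (q.κ₁ * q.R) ^ 2 := pow_le_pow_left₀ (by linarith) hq.R 2
    have h3 : 4 * qq z / (q.κ₁ * q.R) ^ 2 ≤ 1 := by
      rw [div_le_one (by positivity)]
      nlinarith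
    linarith
  have a2 : 10 * (-(q.σ / q.R * d.u0 z) - 3 / 2) ≤ 0 := by
    have : 0 ≤ q.σ / q.R * d.u0 z := by positivity
    linarith
  have a3 : 20 * (d.u0 z - 2 * d.l₀ q) / q.R - 92 ≤ 0 := by
    have : 20 * (d.u0 z - 2 * d.l₀ q) / q.R ≤ 92 := by
      rw [div_le_iff₀ hR]
      linarith
    linarith
  unfold Pk.tinf
  rw [Real.smoothTransition.zero_of_nonpos a1, Real.smoothTransition.zero_of_nonpos a2,
    Real.smoothTransition.zero_of_nonpos a3]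
  norm_num

/-- helper404's facts from the flat quantities. -/
theorem no_of (hq : GT n q) (h : PkOk q d) (hq2 : qq z ≤ p₃ q ^ 2) (h0 : 0 ≤ d.u0 z)
    (h1 : d.u0 z ≤ 2 * d.l₀ q + 23 / 5 * q.R) : NO q d z := by
  have h2 := tinf_zero (d := d) hq hq2 h0 h1
  rw [d.tinf_eq q] at h2
  exact H404.INF.near_alive (H404.INF.lvG hq.gc.inf h) hq.gc.inf.κ0 hq.gc.inf.κ1
    (by rw [h2]; norm_num)

/-- `|u - u₀| ≤ 1/4`. -/
theorem u_close (h : PkOk q d) (z : VV n) : |d.u q z - d.u0 z| ≤ 1 / 4 := by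
  have e : d.u q z - d.u0 z = 2 * (d.χ (d.r2 z) * d.μc q (d.l (H464.Cu.mid z))) := by
    have : d.u q z = d.l z.1 + d.l z.2 +
      2 * (d.χ (d.r2 z) * d.μc q (d.l (H464.Cu.mid z))) := rfl
    rw [this]
    unfold Pk.u0
    ring
  rw [e]
  obtain ⟨c1, c2⟩ := h.χb (d.r2 z)
  have h2 := (d.μc_abs q (d.l (H464.Cu.mid z))).trans (h.ph.μb _)
  rw [abs_mul, abs_mul, abs_of_nonneg c1, abs_of_pos (by norm_num : (0 : ℝ) < 2)]
  nlinarith [abs_nonneg (d.μc q (d.l (H464.Cu.mid z)))]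

section core2

variable (hq : GT n q) (h : PkOk q d)

include hq h

theorem TR.tinf (hz : TR q d z) : d.tinf q z = 0 := by
  have h2 := hz.u_lt hq h
  have hR := hq.wc.R
  exact tinf_zero hq hz.q2 (hz.tb hq h).nd.u0 (by linarith)

/-- The slope at a close level. -/
theorem TR.near (hz : TR q d z) {v : ℝ} (hv : |v - d.u0 z| ≤ 1 / 4) :
    deriv d.Φ v ≤ q.nm * Real.exp v ∧ q.ν₁ * Real.exp v ≤ deriv d.Φ v := by
  obtain ⟨v1, v2⟩ := abs_le.1 hv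
  have hN := h.N_pos hq.gc.M1 (d.u0 z)
  have hlo := hz.lo hq h
  have hup := hz.up hq h
  obtain ⟨f, hf0, hf2, hw⟩ : ∃ f : ℝ, 0 ≤ f ∧ f ≤ 2 ∧ Win d f (d.u0 z) := by
    rcases hz.win hq h with ⟨-, -, h1⟩ | ⟨-, -, h1⟩
    · exact ⟨9 / 10, by norm_num, by norm_num, h1⟩
    · exact ⟨2, by norm_num, le_rfl, h1⟩
  rw [hw.k1 v (hv.trans (by norm_num))]
  have e0 : Real.exp v = Real.exp (d.u0 z) * Real.exp (v - d.u0 z) := by
    rw [← Real.exp_add]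
    ring_nf
  have b1 : Real.exp (f * (v - d.u0 z)) ≤ Real.exp 2 * Real.exp (v - d.u0 z) := by
    rw [← Real.exp_add]
    refine Real.exp_le_exp.2 ?_
    nlinarith
  have b2 : Real.exp (v - d.u0 z) ≤ Real.exp 2 * Real.exp (f * (v - d.u0 z)) := by
    rw [← Real.exp_add]
    refine Real.exp_le_exp.2 ?_
    nlinarith
  have hE := Real.exp_pos (v - d.u0 z)
  have hE2 := Real.exp_pos (2 : ℝ)
  constructor
  · have h1 := mul_le_mul_of_nonneg_left b1 hN.le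
    have h2 := mul_le_mul_of_nonneg_right hup hE.le
    rw [e0]
    nlinarith
  · have h1 := mul_le_mul_of_nonneg_left b2 (mul_nonneg hq.wc.ν₁.le (Real.exp_pos (d.u0 z)).le)
    have h2 := mul_le_mul_of_nonneg_right hlo (Real.exp_pos (f * (v - d.u0 z))).le
    rw [e0]
    nlinarith

/-- The cut `rs` is off. -/
theorem TR.VS (hz : TR q d z) : d.VS q (d.u q z) = 0 := by
  have h1 := (hz.near hq h (u_close h z)).1
  have hN := h.N_pos hq.gc.M1 (d.u q z)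
  have h2 := Real.log_le_log hN h1
  rw [Real.log_mul hq.wc.nm.ne' (Real.exp_pos _).ne', Real.log_exp] at h2
  unfold Pk.VS
  rw [Real.smoothTransition.zero_of_nonpos (by linarith), zero_mul]

/-- The cut `far` is off. -/
theorem TR.far (hz : TR q d z) : d.r2 z < (3 / 2 * q.p₁) ^ 2 := by
  have h1 := (abs_le.1 (hq.met d h z)).2
  have h2 := hz.q2
  have h3 := p₃_ge hq.gc.rad
  have h4 : dT q ≤ ((3 / 2 * q.p₁) ^ 2 - p₃ q ^ 2) / (2 * p₃ q ^ 2) :=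
    (min_le_right _ _).trans (min_le_left _ _)
  have h5 := dT_pos hq.gc.rad
  have h6 : dT q * (2 * p₃ q ^ 2) ≤ (3 / 2 * q.p₁) ^ 2 - p₃ q ^ 2 := by
    rwa [le_div_iff₀ (by positivity)] at h4
  have h7 : dT q * qq z ≤ dT q * p₃ q ^ 2 := mul_le_mul_of_nonneg_left h2 h5.le
  have h8 : 0 < dT q * p₃ q ^ 2 := by positivity
  nlinarith

/-- The other gradient is long. -/
theorem TR.oth (hz : TR q d z) :
    19 / 10 * d.NG q z ≤ en (gy d q z) ∨ 19 / 10 * d.NG q z ≤ en (gx d q z) := by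
  have ht : 2 * q.rT ≤ 1 / 20 := by linarith [hq.gc.rT1]
  rcases hz.g with hg | hg
  · exact Or.inl (oth_x hq.gc h hz.no (hz.r0 hq) (hz.r1 hq) ht hg)
  · exact Or.inr (oth_y hq.gc h hz.no (hz.r0 hq) (hz.r1 hq) ht hg)

end core2

/-! ## The level function -/

section lev

variable (hq : GT n q) (h : PkOk q d)

include hq h

/-- The gradient of the level function is affine near the two points. -/
theorem TR.grad (hz : TR q d z) :
    (∀ᶠ w in 𝓝 z.1, gl d.l w = H475.wR n q.σ q.R w) ∧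
      (∀ᶠ w in 𝓝 z.2, gl d.l w = H475.wR n q.σ q.R w) ∧
      |HY.sq (gl d.l z.1) - 1| ≤ 5 * q.σ ∧ |HY.sq (gl d.l z.2) - 1| ≤ 5 * q.σ := by
  have hR := hq.gc.inf.R0
  have hσ := hq.gc.inf.σ0
  have hn := (hz.tb hq h).nd
  have hLv := H404.INF.lvG hq.gc.inf h
  have hl : Continuous d.l := h.l_sm.continuous
  have hu : 0 ≤ d.l z.1 + d.l z.2 := hn.u0
  have hl0 := H404.INF.l₀_le hq.gc.inf h
  have hη := hq.gc.inf.η1
  have hκ := hq.gc.inf.κ1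
  have hd := abs_le.1 hz.no.dg
  rw [hLv.gl z.1, hLv.gl z.2, ← sub_div] at hd
  have k1 := hd.1
  have k2 := hd.2
  rw [le_div_iff₀ hR] at k1
  rw [div_le_iff₀ hR] at k2
  have kR : q.κ₁ * q.R ≤ 1 / 50 * q.R := mul_le_mul_of_nonneg_right hκ hR.le
  have ηR : q.η * q.R ≤ 1 / 200 * q.R := mul_le_mul_of_nonneg_right hη hR.le
  have a1 : -(1 / 40) * q.R ≤ d.l z.1 - d.l₀ q := by nlinarith
  have a2 : -(1 / 40) * q.R ≤ d.l z.2 - d.l₀ q := by nlinarith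
  have key : ∀ x : V n, -(1 / 40) * q.R ≤ d.l x - d.l₀ q → H475.gg n q.σ (q.R⁻¹ • x) ≤ 12 / 5 →
      (∀ᶠ w in 𝓝 x, gl d.l w = H475.wR n q.σ q.R w) ∧ |HY.sq (gl d.l x) - 1| ≤ 5 * q.σ := by
    intro x hx hg
    constructor
    · have ho : {w : V n | -q.R < d.l w - d.l₀ q} ∈ 𝓝 x :=
        (isOpen_lt continuous_const (hl.sub continuous_const)).mem_nhds
          (show -q.R < d.l x - d.l₀ q by linarith)
      filter_upwards [ho] with w hw
      exact (gl_lit hq.gc.inf h (le_of_lt hw)).1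
    · rw [(gl_lit hq.gc.inf h (x := x) (by linarith)).2]
      have h1 : -(1 / 40) ≤ (d.l x - d.l₀ q) / q.R := by
        rw [le_div_iff₀ hR]; linarith
      have h2 : (d.l x - d.l₀ q) / q.R ≤ 12 / 5 := by rwa [hLv.gl] at hg
      rw [abs_le]
      constructor <;> nlinarith
  exact ⟨(key _ a1 hz.no.g1).1, (key _ a2 hz.no.g2).1, (key _ a1 hz.no.g1).2,
    (key _ a2 hz.no.g2).2⟩

omit hq h in
/-- `wR` in coordinates. -/
theorem wR_apply (x : V n) (i : Fin n) : H475.wR n q.σ q.R x i =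
    (1 - q.σ) * T3.e0 n i + q.σ / q.R * x i := by
  unfold H475.wR H475.wv
  simp only [Pi.smul_apply, smul_eq_mul]
  ring

end lev

/-! ## Where the leaves are alive -/

section alive

variable (hq : GT n q) (h : PkOk q d) (hL : LitSm q d)

include hq h in
theorem qq_bd (hr : d.r2 z ≤ q.p₂ ^ 2) (hc : q.c₀ ^ 2 ≤ d.r2 z) :
    q.c₀ ^ 2 / 2 ≤ qq z ∧ qq z ≤ p₃ q ^ 2 ∧ qq z ≤ 2 * q.p₂ ^ 2 := by
  obtain ⟨h1, h2⟩ := abs_le.1 (hq.met d h z)
  have h3 : dT q ≤ 1 / 4 := min_le_left _ _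
  have h4 : dT q ≤ (p₃ q ^ 2 - q.p₂ ^ 2) / (2 * p₃ q ^ 2) :=
    (min_le_right _ _).trans (min_le_right _ _)
  have h5 := dT_pos hq.gc.rad
  have h6 := p₃_ge hq.gc.rad
  have h7 := qq_nonneg z
  have h8 := p₂_ge hq.gc.rad
  have h9 : dT q * qq z ≤ 1 / 4 * qq z := mul_le_mul_of_nonneg_right h3 h7
  refine ⟨by nlinarith, ?_, by nlinarith⟩
  by_contra hcon
  have h10 : p₃ q ^ 2 < qq z := not_le.1 hcon
  have h11 : dT q * (2 * p₃ q ^ 2) ≤ p₃ q ^ 2 - q.p₂ ^ 2 := by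
    rwa [le_div_iff₀ (by positivity)] at h4
  have h12 : (1 - dT q) * qq z ≤ q.p₂ ^ 2 := by nlinarith
  have h13 : (1 - dT q) * p₃ q ^ 2 ≤ (1 - dT q) * qq z :=
    mul_le_mul_of_nonneg_left h10.le (by linarith)
  have h14 : 0 < dT q * p₃ q ^ 2 := by positivity
  nlinarith

include hq h hL

/-- **`T1` alive.** -/
theorem alive_T1 (hk : d.ch q .T1 z ≠ 0) : TR q d z ∧ q.c₀ ^ 2 / 2 ≤ qq z ∧
    qq z ≤ 2 * q.p₂ ^ 2 ∧ en (gx d q z) < q.rT * d.NG q z := by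
  have hNG := NG_pos hq.gc h z
  have hrT := hq.gc.rT0
  have h1 := sd_T1 hrT hNG hk
  rw [sq_gx] at h1
  have h2 : en (gx d q z) < q.rT * d.NG q z := by
    exact lt_of_pow_lt_pow_left₀ 2 (by positivity) h1
  obtain ⟨b1, b2, b3⟩ := qq_bd hq h (sd_T hk (Or.inl rfl) hL.cp) (sd_off hk (Or.inl rfl) hL.cp)
  have hc := hq.c0
  refine ⟨⟨?_, by nlinarith, b2, Or.inl ?_⟩, b1, b3, h2⟩
  · exact sd_near hk (by unfold Inf; decide) hq.gc.inf.κ0 hq.gc.inf.κ1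
      (H404.INF.lvG hq.gc.inf h)
  · nlinarith [mul_pos hrT hNG]

/-- **`T2` alive.** -/
theorem alive_T2 (hk : d.ch q .T2 z ≠ 0) : TR q d z ∧ q.c₀ ^ 2 / 2 ≤ qq z ∧
    qq z ≤ 2 * q.p₂ ^ 2 ∧ en (gy d q z) < q.rT * d.NG q z := by
  have hNG := NG_pos hq.gc h z
  have hrT := hq.gc.rT0
  have h1 := sd_T2 hrT hNG hk
  rw [sq_gy] at h1
  have h2 : en (gy d q z) < q.rT * d.NG q z := by
    exact lt_of_pow_lt_pow_left₀ 2 (by positivity) h1
  obtain ⟨b1, b2, b3⟩ := qq_bd hq h (sd_T hk (Or.inr (Or.inl rfl)) hL.cp)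
    (sd_off hk (Or.inr (Or.inl rfl)) hL.cp)
  have hc := hq.c0
  refine ⟨⟨?_, by nlinarith, b2, Or.inr ?_⟩, b1, b3, h2⟩
  · exact sd_near hk (by unfold Inf; decide) hq.gc.inf.κ0 hq.gc.inf.κ1
      (H404.INF.lvG hq.gc.inf h)
  · nlinarith [mul_pos hrT hNG]

end alive

/-! ## From the variables of the cuts -/

theorem tx_lt2 (hq : GT n q) (h : PkOk q d) (ht : d.tx q q.rT z < 2) :
    en (gx d q z) ≤ 2 * q.rT * d.NG q z := by
  have hNG := NG_pos hq.gc h z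
  have hrT := hq.gc.rT0
  unfold Pk.tx at ht
  rw [sq_gx] at ht
  have h0 : 0 < (q.rT * d.NG q z) ^ 2 := by positivity
  have h1 : 4 * en (gx d q z) ^ 2 / (q.rT * d.NG q z) ^ 2 < 7 := by linarith
  rw [div_lt_iff₀ h0] at h1
  exact (abs_le_of_sq_le_sq' (by nlinarith) (by positivity)).2

theorem ty_lt2 (hq : GT n q) (h : PkOk q d) (ht : d.ty q q.rT z < 2) :
    en (gy d q z) ≤ 2 * q.rT * d.NG q z := by
  have hNG := NG_pos hq.gc h z
  have hrT := hq.gc.rT0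
  unfold Pk.ty at ht
  rw [sq_gy] at ht
  have h0 : 0 < (q.rT * d.NG q z) ^ 2 := by positivity
  have h1 : 4 * en (gy d q z) ^ 2 / (q.rT * d.NG q z) ^ 2 < 7 := by linarith
  rw [div_lt_iff₀ h0] at h1
  exact (abs_le_of_sq_le_sq' (by nlinarith) (by positivity)).2

/-- `tx ≥ 1` where `|W0_x| ≥ rT NG`. -/
theorem tx_ge1 (hq : GT n q) (h : PkOk q d) (ht : q.rT * d.NG q z ≤ en (gx d q z)) :
    1 ≤ d.tx q q.rT z := by
  have hNG := NG_pos hq.gc h z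
  have hrT := hq.gc.rT0
  unfold Pk.tx
  rw [sq_gx]
  have h0 : 0 < (q.rT * d.NG q z) ^ 2 := by positivity
  have h1 : 4 ≤ 4 * en (gx d q z) ^ 2 / (q.rT * d.NG q z) ^ 2 := by
    rw [le_div_iff₀ h0]
    have := pow_le_pow_left₀ (by positivity) ht 2
    linarith
  linarith

theorem ty_ge1 (hq : GT n q) (h : PkOk q d) (ht : q.rT * d.NG q z ≤ en (gy d q z)) :
    1 ≤ d.ty q q.rT z := by
  have hNG := NG_pos hq.gc h z
  have hrT := hq.gc.rT0
  unfold Pk.ty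
  rw [sq_gy]
  have h0 : 0 < (q.rT * d.NG q z) ^ 2 := by positivity
  have h1 : 4 ≤ 4 * en (gy d q z) ^ 2 / (q.rT * d.NG q z) ^ 2 := by
    rw [le_div_iff₀ h0]
    have := pow_le_pow_left₀ (by positivity) ht 2
    linarith
  linarith

/-- **(B)** From the flat quantities. -/
theorem tr_of (hq : GT n q) (h : PkOk q d) (h1 : q.c₀ ^ 2 / 4 ≤ qq z) (h2 : qq z ≤ p₃ q ^ 2)
    (h3 : d.u0 z ≤ 2 * d.l₀ q + 23 / 5 * q.R)
    (h4 : deriv d.Φ (d.u0 z) ≤ q.nm * Real.exp (d.u0 z)) (hM : q.nm ≤ q.M₀)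
    (ht : d.tx q q.rT z < 2 ∨ d.ty q q.rT z < 2) : TR q d z := by
  have h0 : 0 ≤ d.u0 z := by
    have h5 : q.M₀ ≤ q.nm * Real.exp (d.u0 z) := (h.N_ge _).trans h4
    have h6 : q.nm * 1 ≤ q.nm * Real.exp (d.u0 z) := by linarith
    have h7 := le_of_mul_le_mul_left h6 hq.wc.nm
    exact Real.one_le_exp_iff.1 h7
  refine ⟨no_of hq h h2 h0 h3, h1, h2, ?_⟩
  rcases ht with ht | ht
  · exact Or.inl (tx_lt2 hq h ht)
  · exact Or.inr (ty_lt2 hq h ht)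

/-- `T2` is off where `|W0_x| ≤ 2 rT NG`, `T1` where `|W0_y| ≤ 2 rT NG`. -/
theorem ty_of_tx (hq : GT n q) (h : PkOk q d) (hz : TR q d z)
    (ht : en (gx d q z) ≤ 2 * q.rT * d.NG q z) : 1 ≤ d.ty q q.rT z := by
  have ht' : 2 * q.rT ≤ 1 / 20 := by linarith [hq.gc.rT1]
  have h1 := oth_x hq.gc h hz.no (hz.r0 hq) (hz.r1 hq) ht' ht
  have hNG := NG_pos hq.gc h z
  exact ty_ge1 hq h (by nlinarith [hq.gc.rT1])

theorem tx_of_ty (hq : GT n q) (h : PkOk q d) (hz : TR q d z)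
    (ht : en (gy d q z) ≤ 2 * q.rT * d.NG q z) : 1 ≤ d.tx q q.rT z := by
  have ht' : 2 * q.rT ≤ 1 / 20 := by linarith [hq.gc.rT1]
  have h1 := oth_y hq.gc h hz.no (hz.r0 hq) (hz.r1 hq) ht' ht
  have hNG := NG_pos hq.gc h z
  exact tx_ge1 hq h (by nlinarith [hq.gc.rT1])

end Vale.Agent.P088.R2.H509.TG
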