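import Vale.Agent.P088.R2.H509.EP.Lit
import Vale.Agent.P088.R2.H31.EP.PackL
import Vale.Agent.P088.R2.H222.Inv

/-!
# P088, stage 3, EST': the literal partition is smooth
-/

open Set Filter
open scoped ContDiff Topology Matrix

noncomputable section

namespace Vale.Agent.P088.R2.H31.EP

open Vale.Agent.P088.LR Vale.Agent.P088.HY
open Vale.Agent.P088.R2.H464.Cu (mid dif rq bf mid_apply dif_apply)
open Vale.Agent.P088.R2.H867.EP
open Vale.Agent.P088.R2.H222 (dl)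

variable {n : ℕ} {q : Cst} {d : Pk n}

/-! ## The radii -/

theorem exp_ge_20 {x : ℝ} (h : 40 ≤ x) : rp * Real.exp 2 ≤ Real.exp x := by
  have h1 : (39 : ℝ) ≤ Real.exp 38 := by
    have := Real.add_one_le_exp (38 : ℝ)
    linarith
  have h2 : Real.exp 40 = Real.exp 38 * Real.exp 2 := by
    rw [← Real.exp_add]
    norm_num
  have h3 : Real.exp 40 ≤ Real.exp x := Real.exp_le_exp.2 h
  refine le_trans ?_ h3
  rw [h2]
  refine mul_le_mul_of_nonneg_right ?_ (Real.exp_pos _).le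
  unfold rp
  linarith

theorem rad_ok {e₁ : ℝ} (h0 : 0 < e₁) (h1 : e₁ ≤ 1 / 100) : H509.Rad.Ok e₁ rp where
  e0 := h0
  e1 := h1
  r1 := by unfold rp; norm_num
  r2 := exp_ge_20 (by
    rw [le_div_iff₀ (by positivity)]
    linarith)

theorem EvC.rad : EvC fun q => H509.Rad.Ok q.e₁ rp :=
  EvC.at_e₁ (fun _ t => H509.Rad.Ok t rp) fun _ =>
    ev_sml (a := 1 / 100) (by norm_num) fun _ h0 h1 => rad_ok h0 h1

theorem Cst.p₁_ge (h : H509.Rad.Ok q.e₁ rp) : 1 ≤ q.p₁ := h.one_le (by norm_num)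

theorem Cst.p₁_lt (h : H509.Rad.Ok q.e₁ rp) : q.p₁ < q.p₂ :=
  h.pr_lt (by norm_num) (by norm_num) le_rfl

theorem Cst.p₂_lt (h : H509.Rad.Ok q.e₁ rp) : q.p₂ < 3 / 2 * q.p₁ :=
  h.pr_lt' (by norm_num) (by norm_num) (by norm_num) le_rfl

theorem prR_pos (e₁ : ℝ) : 0 < prR e₁ := by
  unfold prR rp
  positivity

/-! ## The slope -/

namespace PkOk

theorem Φs (h : PkOk q d) : ContDiff ℝ ∞ d.Φ := h.top.sm

theorem Φ's (h : PkOk q d) : ContDiff ℝ ∞ (deriv d.Φ) := (contDiff_infty_iff_deriv.1 h.Φs).2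

theorem Φ''s (h : PkOk q d) : ContDiff ℝ ∞ (deriv (deriv d.Φ)) :=
  (contDiff_infty_iff_deriv.1 h.Φ's).2

theorem N_ge (h : PkOk q d) (u : ℝ) : q.M₀ ≤ deriv d.Φ u := (h.ph.isΦ.n1 u).trans (h.top.l1 u)

theorem N_pos (h : PkOk q d) (hM : 1 ≤ q.M₀) (u : ℝ) : 0 < deriv d.Φ u := by
  linarith [h.N_ge u]

theorem logN_sm (h : PkOk q d) (hM : 1 ≤ q.M₀) :
    ContDiff ℝ ∞ fun u => Real.log (deriv d.Φ u) := h.Φ's.log fun u => (h.N_pos hM u).ne'

/-! ## The parameters of the cuts -/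

/-- **The parameters of the cuts are admissible.** -/
theorem cpOk (h : PkOk q d) (hr : H509.Rad.Ok q.e₁ rp) (hM : 1 ≤ q.M₀) (hcK : 0 < q.cK)
    (hc₀ : 0 < q.c₀) (hη : 0 < q.ηc) (hc : 0 ≤ q.σ / (q.CB * q.R)) : (d.cp q).Ok where
  VSs := by
    refine ContDiff.mul ?_ ?_
    · exact Real.smoothTransition.contDiff.comp
        (((h.logN_sm hM).sub contDiff_id).sub contDiff_const)
    · exact Real.smoothTransition.contDiff.comp (contDiff_id.sub contDiff_const)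
  q₁ := prR_pos _
  q₂ := by
    show prR q.e₁ < prR q.e₁ + 1
    linarith
  c₀ := hc₀
  w₀ := Real.log_pos (by norm_num)
  wB := Real.log_pos (by norm_num)
  ct := hcK
  Ks := h.Φ''s
  Kp := h.top.k0
  V₀s := contDiff_id.sub (h.logN_sm hM)
  VBs := contDiff_id.sub (contDiff_const.mul (h.logN_sm hM))
  Λ := Real.one_lt_exp_iff.2 (by positivity)
  M₁s := H932.EP.m1x_smooth hc (d.ξ_is q)
  M₁p := H932.EP.m1x_pos hc (d.ξ_is q)
  r₁ := by
    have := Cst.p₁_ge hr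
    show 0 < 3 / 2 * q.p₁
    linarith
  r₂ := by
    have := Cst.p₁_ge hr
    show 3 / 2 * q.p₁ < 2 * q.p₁
    linarith
  p₁ := by
    have := Cst.p₁_ge hr
    show 0 < q.p₁
    linarith
  p₂ := Cst.p₁_lt hr

end PkOk

/-- **(D1)** The parameters of the cuts are admissible. -/
theorem EvC.cpOk (n : ℕ) : EvC fun q => ∀ d : Pk n, PkOk q d → (d.cp q).Ok := by
  refine (EvC.pos.and EvC.rad).mono ?_
  rintro q ⟨⟨⟨a1, a2, a3, a4, a5, a6, a7, a8, a9, a10⟩, ⟨b1, b2, b3, b4, b5, b6, b7⟩, c1, c2, c3,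
    c4, c5, c6⟩, hr⟩ d h
  exact h.cpOk hr c1 a4 a6 a9 (by positivity)

/-! ## The metric -/

theorem sq_eq (x : V n) : HY.sq x = ∑ i, x i ^ 2 := rfl

theorem qq_eq (z : VV n) : qq z = ∑ i, (z.1 i - z.2 i) ^ 2 := rfl

theorem qq_nonneg (z : VV n) : 0 ≤ qq z := by
  rw [qq_eq]
  exact Finset.sum_nonneg fun _ _ => sq_nonneg _

theorem qq_sm : ContDiff ℝ ∞ (qq : VV n → ℝ) := by
  have h : (qq : VV n → ℝ) = fun z => ∑ i, (z.1 i - z.2 i) ^ 2 := rfl
  rw [h]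
  refine ContDiff.sum fun i _ => ContDiff.pow (ContDiff.sub ?_ ?_) 2
  · exact (contDiff_apply ℝ ℝ i).comp contDiff_fst
  · exact (contDiff_apply ℝ ℝ i).comp contDiff_snd

/-- A form close to `|v|²`. -/
theorem bf_close {G : Matrix (Fin n) (Fin n) ℝ} {δ : ℝ} (h : ∀ i j, |G i j - dl i j| ≤ δ) (v : V n) :
    |bf G v v - ∑ i, v i ^ 2| ≤ n * δ * ∑ i, v i ^ 2 := by
  have e1 : bf G v v - ∑ i, v i ^ 2 = ∑ i, ∑ j, (G i j - dl i j) * v i * v j := by
    have e2 : ∑ i, v i ^ 2 = ∑ i, ∑ j, dl i j * v i * v j := by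
      refine Finset.sum_congr rfl fun i _ => ?_
      rw [Finset.sum_eq_single i]
      · rw [dl, Matrix.one_apply_eq]
        ring
      · intro j _ hj
        rw [dl, Matrix.one_apply_ne hj.symm]
        ring
      · intro hi
        exact absurd (Finset.mem_univ i) hi
    rw [e2]
    unfold bf
    rw [← Finset.sum_sub_distrib]
    refine Finset.sum_congr rfl fun i _ => ?_
    rw [← Finset.sum_sub_distrib]
    exact Finset.sum_congr rfl fun j _ => by ring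
  rw [e1]
  have h1 : |∑ i, ∑ j, (G i j - dl i j) * v i * v j| ≤ ∑ i, ∑ j, δ * ((v i ^ 2 + v j ^ 2) / 2) := by
    refine (Finset.abs_sum_le_sum_abs _ _).trans (Finset.sum_le_sum fun i _ => ?_)
    refine (Finset.abs_sum_le_sum_abs _ _).trans (Finset.sum_le_sum fun j _ => ?_)
    rw [mul_assoc, abs_mul]
    refine mul_le_mul (h i j) ?_ (abs_nonneg _) ((abs_nonneg _).trans (h i j))
    rw [abs_le]
    constructor <;> nlinarith [sq_nonneg (v i - v j), sq_nonneg (v i + v j)]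
  refine h1.trans (le_of_eq ?_)
  have e3 : ∀ i : Fin n, ∑ j, δ * ((v i ^ 2 + v j ^ 2) / 2) =
      δ / 2 * (n * v i ^ 2 + ∑ j, v j ^ 2) := fun i => by
    rw [← Finset.mul_sum, ← Finset.sum_div, Finset.sum_add_distrib, Finset.sum_const,
      Finset.card_univ, Fintype.card_fin, nsmul_eq_mul]
    ring
  simp only [e3]
  rw [← Finset.mul_sum, Finset.sum_add_distrib, Finset.sum_const, Finset.card_univ,
    Fintype.card_fin, nsmul_eq_mul, ← Finset.mul_sum]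
  ring

/-- The inverse is close to `1`. -/
theorem inv_close {M : Matrix (Fin n) (Fin n) ℝ} {ε : ℝ} (h : ∀ i j, |M i j - dl i j| ≤ ε)
    (hε : n * ε ≤ 1 / 2) (i j : Fin n) : |M⁻¹ i j - dl i j| ≤ 2 * n * ε := by
  have hd := H222.det_ne h hε
  have hu : IsUnit M.det := isUnit_iff_ne_zero.2 hd
  have e0 : M⁻¹ - 1 = -(M⁻¹ * (M - 1)) := by
    rw [mul_sub, Matrix.nonsing_inv_mul _ hu, mul_one]
    abel
  have e1 : M⁻¹ i j - dl i j = -∑ k, M⁻¹ i k * (M k j - dl k j) := by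
    have := congrFun (congrFun e0 i) j
    simpa [Matrix.mul_apply, dl] using this
  rw [e1, abs_neg]
  refine (Finset.abs_sum_le_sum_abs _ _).trans ?_
  have h1 : ∑ k : Fin n, |M⁻¹ i k * (M k j - dl k j)| ≤ ∑ _k : Fin n, 2 * ε := by
    refine Finset.sum_le_sum fun k _ => ?_
    rw [abs_mul]
    exact mul_le_mul (H222.inv_le h hε i k) (h k j) (abs_nonneg _) (by norm_num)
  refine h1.trans (le_of_eq ?_)
  rw [Finset.sum_const, Finset.card_univ, Fintype.card_fin, nsmul_eq_mul]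
  ring

namespace PkOk

/-- The tensor is close to `1`. -/
theorem s₁_close (h : PkOk q d) (x : V n) (i j : Fin n) : |d.s₁ x i j - dl i j| ≤ q.ε := by
  have := h.rg.cl₁ i j 0 (by norm_num) x
  rwa [norm_iteratedFDeriv_zero, pow_zero, mul_one, Real.norm_eq_abs] at this

theorem gi_close (h : PkOk q d) (hε : n * q.ε ≤ 1 / 2) (x : V n) (i j : Fin n) :
    |gi d.s₁ x i j - dl i j| ≤ 2 * n * q.ε := inv_close (h.s₁_close x) hε i j

theorem gi_sm (h : PkOk q d) (hε : n * q.ε ≤ 1 / 2) (i j : Fin n) :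
    ContDiff ℝ ∞ fun x => gi d.s₁ x i j := by
  rw [← contDiffOn_univ]
  exact H222.inv_smooth (fun i j => (h.rg.sm₁ i j).contDiffOn)
    (fun x _ => H222.det_ne (h.s₁_close x) hε) i j

theorem gi_symm (h : PkOk q d) (x : V n) (i j : Fin n) : gi d.s₁ x i j = gi d.s₁ x j i := by
  have h1 : (gi d.s₁ x).IsSymm := by
    show ((d.s₁ x)⁻¹)ᵀ = (d.s₁ x)⁻¹
    rw [Matrix.transpose_nonsing_inv, (h.rg.sy₁ x).eq]
  exact h1.apply j i

/-- `r²` is close to `|x - y|²`. -/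
theorem rq_close (h : PkOk q d) (hε : n * q.ε ≤ 1 / 2) (z : VV n) :
    |2 * rq (gi d.s₁) z - qq z| ≤ 2 * n ^ 2 * q.ε * qq z := by
  have h1 := bf_close (fun i j => h.gi_close hε (mid z) i j) (dif z)
  have e1 : ∑ i, dif z i ^ 2 = qq z := rfl
  have e2 : 2 * rq (gi d.s₁) z = bf (gi d.s₁ (mid z)) (dif z) (dif z) := by
    unfold rq
    ring
  rw [e2]
  rw [e1] at h1
  refine h1.trans (le_of_eq ?_)
  ring

theorem rq_sm (h : PkOk q d) (hε : n * q.ε ≤ 1 / 2) : ContDiff ℝ ∞ (rq (gi d.s₁)) :=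
  H867.EP.rq_sm (h.gi_sm hε)

end PkOk

/-- The distance of the tensors is small compared with `δ`, a function of the constants before
`ε`. -/
theorem EvC.ε_le (δ : Cst → ℝ) (hδ : NB_ε δ) : EvC fun q => 0 < δ q → q.ε ≤ δ q := by
  have h : EvC fun q => 0 < δ q.b_ε → q.ε ≤ δ q.b_ε :=
    EvC.at_ε (fun q t => 0 < δ q → t ≤ δ q) fun q => by
      by_cases h : 0 < δ q
      · exact (sml_le h).mono fun _ h1 _ => h1
      · exact Eventually.of_forall fun _ h1 => absurd h1 h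
  exact h.mono fun q hq => by rwa [hδ q] at hq

/-- **(D2)** `|2 ρ - |x - y|²| ≤ δ |x - y|²`; the metric is smooth, symmetric, close to `1`. -/
theorem EvC.metric (n : ℕ) (δ : Cst → ℝ) (hδ : NB_ε δ) : EvC fun q => 0 < δ q →
    ∀ d : Pk n, PkOk q d → (∀ i j, ContDiff ℝ ∞ fun x => gi d.s₁ x i j) ∧
      (∀ x i j, gi d.s₁ x i j = gi d.s₁ x j i) ∧ (∀ x i j, |gi d.s₁ x i j - dl i j| ≤ δ q) ∧
      ContDiff ℝ ∞ (rq (gi d.s₁)) ∧ ∀ z, |2 * rq (gi d.s₁) z - qq z| ≤ δ q * qq z := by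
  have hn : (0 : ℝ) ≤ n := Nat.cast_nonneg n
  have hn0 : (0 : ℝ) < 2 * (n + 1) ^ 2 := by positivity
  refine ((EvC.ε_le (fun q => δ q / (2 * (n + 1) ^ 2)) fun q => by
    show δ q.b_ε / _ = _
    rw [hδ q]).and ((EvC.ε_le (fun _ => 1 / (2 * (n + 1) ^ 2)) fun _ => rfl).and EvC.pos)).mono ?_
  rintro q ⟨h1, h2, h3⟩ h0 d h
  have hε0 : 0 < q.ε := h3.2.2.2.2.1
  have h4 := h1 (by positivity)
  have h5 := h2 (by positivity)
  rw [le_div_iff₀ hn0] at h4 h5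
  have hε : n * q.ε ≤ 1 / 2 := by nlinarith
  have h6 : 2 * n ^ 2 * q.ε ≤ δ q := by nlinarith
  have h7 : 2 * n * q.ε ≤ δ q := by nlinarith
  exact ⟨h.gi_sm hε, h.gi_symm, fun x i j => (h.gi_close hε x i j).trans h7, h.rq_sm hε,
    fun z => (h.rq_close hε z).trans (mul_le_mul_of_nonneg_right h6 (qq_nonneg z))⟩

/-- `ρ ≥ 0`, in fact `|x - y|² / 2 ≤ 2 ρ ≤ 2 |x - y|²`. -/
theorem EvC.rq (n : ℕ) : EvC fun q => ∀ d : Pk n, PkOk q d → ContDiff ℝ ∞ (rq (gi d.s₁)) ∧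
    ∀ z, 0 ≤ rq (gi d.s₁) z ∧ 1 / 2 * qq z ≤ 2 * rq (gi d.s₁) z ∧
      2 * rq (gi d.s₁) z ≤ 2 * qq z := by
  refine (EvC.metric n (fun _ => 1 / 2) fun _ => rfl).mono fun q hq d h => ?_
  obtain ⟨-, -, -, h1, h2⟩ := hq (by norm_num) d h
  refine ⟨h1, fun z => ?_⟩
  have h3 := abs_le.1 (h2 z)
  have h4 := qq_nonneg z
  exact ⟨by linarith, by linarith, by linarith⟩

/-! ## The functions -/

namespace PkOk

theorem l_sm (h : PkOk q d) : ContDiff ℝ ∞ d.l := h.lev.sm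

theorem μ_sm (h : PkOk q d) : ContDiff ℝ ∞ (d.μc q) := d.μc_smooth q h.ph.isμ.sm

theorem u_sm (h : PkOk q d) (hg : ∀ i j, ContDiff ℝ ∞ fun x => gi d.s₁ x i j) :
    ContDiff ℝ ∞ (d.u q) := uF_sm (F := d.F q) h.μ_sm h.χs h.l_sm hg

theorem u0_sm (h : PkOk q d) : ContDiff ℝ ∞ d.u0 :=
  (h.l_sm.comp contDiff_fst).add (h.l_sm.comp contDiff_snd)

theorem G0_sm (h : PkOk q d) (hr : H509.Rad.Ok q.e₁ rp) : ContDiff ℝ ∞ (d.G0 q) :=
  h.u0_sm.exp.mul (hr.pp.contDiff_Ph.comp qq_sm)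

theorem prS_nonneg (hr : H509.Rad.Ok q.e₁ rp) {s : ℝ} (hs : 0 ≤ s) : 0 ≤ prS q.e₁ s := by
  rcases hs.lt_or_eq with h | h
  · exact (hr.pp.S_pos h).le
  · rw [← h]
    have h1 : (0 : ℝ) ≤ rp ^ 2 := sq_nonneg _
    have h2 : prS q.e₁ 0 = H644.Fs (2 ^ 2) 0 := hr.pp.Ph_eq h1
    have h3 := H644.Fs_sq_mul 2 0
    norm_num at h3
    rw [h2]
    norm_num
    exact h3.ge

theorem G0_nonneg (hr : H509.Rad.Ok q.e₁ rp) (z : VV n) : 0 ≤ d.G0 q z :=
  mul_nonneg (Real.exp_pos _).le (prS_nonneg hr (qq_nonneg z))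

theorem NG_ge (h : PkOk q d) (hr : H509.Rad.Ok q.e₁ rp) (z : VV n) : q.M₀ ≤ d.NG q z := by
  have h1 := h.N_ge (d.u0 z)
  have h2 := G0_nonneg (d := d) hr z
  unfold Pk.NG
  linarith

theorem W0_sm (h : PkOk q d) (hr : H509.Rad.Ok q.e₁ rp) : ContDiff ℝ ∞ (d.W0 q) :=
  (h.Φs.comp h.u0_sm).add (h.G0_sm hr)

theorem NG_sm (h : PkOk q d) (hr : H509.Rad.Ok q.e₁ rp) : ContDiff ℝ ∞ (d.NG q) :=
  (h.Φ's.comp h.u0_sm).add (h.G0_sm hr)

theorem dx_sm {W : VV n → ℝ} (hW : ContDiff ℝ ∞ W) (i : Fin n) : ContDiff ℝ ∞ (dx i W) :=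
  (hW.fderiv_right (m := ∞) le_rfl).clm_apply contDiff_const

theorem dy_sm {W : VV n → ℝ} (hW : ContDiff ℝ ∞ W) (i : Fin n) : ContDiff ℝ ∞ (dy i W) :=
  (hW.fderiv_right (m := ∞) le_rfl).clm_apply contDiff_const

theorem tx_sm (h : PkOk q d) (hr : H509.Rad.Ok q.e₁ rp) (hM : 1 ≤ q.M₀) {t : ℝ} (ht : 0 < t) :
    ContDiff ℝ ∞ (d.tx q t) := by
  refine ContDiff.div_const (ContDiff.sub (ContDiff.div ?_ ?_ fun z => ?_) contDiff_const) _
  · exact contDiff_const.mul (ContDiff.sum fun i _ => (dx_sm (h.W0_sm hr) i).pow 2)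
  · exact (contDiff_const.mul (h.NG_sm hr)).pow 2
  · have := h.NG_ge hr z
    have : 0 < d.NG q z := by linarith
    positivity

theorem ty_sm (h : PkOk q d) (hr : H509.Rad.Ok q.e₁ rp) (hM : 1 ≤ q.M₀) {t : ℝ} (ht : 0 < t) :
    ContDiff ℝ ∞ (d.ty q t) := by
  refine ContDiff.div_const (ContDiff.sub (ContDiff.div ?_ ?_ fun z => ?_) contDiff_const) _
  · exact contDiff_const.mul (ContDiff.sum fun i _ => (dy_sm (h.W0_sm hr) i).pow 2)
  · exact (contDiff_const.mul (h.NG_sm hr)).pow 2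
  · have := h.NG_ge hr z
    have : 0 < d.NG q z := by linarith
    positivity

theorem st_sm {E : Type*} [NormedAddCommGroup E] [NormedSpace ℝ E] {f : E → ℝ}
    (hf : ContDiff ℝ ∞ f) : ContDiff ℝ ∞ fun z => Real.smoothTransition (f z) :=
  Real.smoothTransition.contDiff.comp hf

theorem tinf_sm (h : PkOk q d) : ContDiff ℝ ∞ (d.tinf q) := by
  unfold Pk.tinf
  refine ContDiff.add (ContDiff.add (st_sm ?_) (st_sm ?_)) (st_sm ?_)
  · exact ((contDiff_const.mul qq_sm).div_const _).sub contDiff_const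
  · exact contDiff_const.mul ((contDiff_const.mul h.u0_sm).neg.sub contDiff_const)
  · exact ((contDiff_const.mul (h.u0_sm.sub contDiff_const)).div_const _).sub contDiff_const

theorem gl_sm (h : PkOk q d) : ContDiff ℝ ∞ (d.gl q) :=
  (h.l_sm.sub contDiff_const).div_const _

theorem thi_sm (h : PkOk q d) : ContDiff ℝ ∞ (d.thi q) := by
  unfold Pk.thi
  refine ContDiff.add (ContDiff.add (st_sm ?_) (st_sm ?_)) (st_sm ?_)
  · exact ((contDiff_const.mul (h.u0_sm.sub contDiff_const)).div_const _).sub contDiff_const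
  · exact (contDiff_const.mul (h.gl_sm.comp contDiff_fst)).sub contDiff_const
  · exact (contDiff_const.mul (h.gl_sm.comp contDiff_snd)).sub contDiff_const

theorem tfs_sm (h : PkOk q d) (hR : 0 < q.R) : ContDiff ℝ ∞ (d.tfs q) := by
  unfold Pk.tfs
  refine ContDiff.div_const (ContDiff.add (contDiff_const.mul (h.u0_sm.add
    (contDiff_const.mul ((contDiff_const.add qq_sm).sqrt fun z => ?_)))) contDiff_const) _
  have := qq_nonneg z
  positivity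

theorem X_sm (h : PkOk q d) (hr : H509.Rad.Ok q.e₁ rp) (hM : 1 ≤ q.M₀) (hT : 0 < q.rT)
    (hR : 0 < q.R) (i : Cut) : ContDiff ℝ ∞ (d.X q i) := by
  cases i
  case inf => exact h.tinf_sm
  case hi => exact h.thi_sm
  case fs => exact h.tfs_sm hR
  case T1 => exact h.tx_sm hr hM hT
  case T2 => exact h.ty_sm hr hM hT
  case P1 => exact h.tx_sm hr hM (by positivity)
  case P2 => exact h.ty_sm hr hM (by positivity)
  all_goals exact contDiff_const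

end PkOk

/-- **(D3)** Everything is smooth. -/
structure LitSm (q : Cst) (d : Pk n) : Prop where
  cp : (d.cp q).Ok
  g : ∀ i j, ContDiff ℝ ∞ fun x => gi d.s₁ x i j
  rq : ContDiff ℝ ∞ (H464.Cu.rq (gi d.s₁))
  rq0 : ∀ z, 0 ≤ H464.Cu.rq (gi d.s₁) z
  u : ContDiff ℝ ∞ (d.u q)
  u0 : ContDiff ℝ ∞ d.u0
  G0 : ContDiff ℝ ∞ (d.G0 q)
  G0n : ∀ z, 0 ≤ d.G0 q z
  W0 : ContDiff ℝ ∞ (d.W0 q)
  NG : ContDiff ℝ ∞ (d.NG q)
  NGg : ∀ z, q.M₀ ≤ d.NG q z
  X : ∀ i, ContDiff ℝ ∞ (d.X q i)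
  cv : ∀ i, ContDiff ℝ ∞ (d.cv q i)
  ch : ∀ k, ContDiff ℝ ∞ (d.ch q k)

theorem EvC.litSm (n : ℕ) : EvC fun q => ∀ d : Pk n, PkOk q d → LitSm q d := by
  refine (((EvC.cpOk n).and (EvC.rq n)).and ((EvC.metric n (fun _ => 1 / 2) fun _ => rfl).and
    (EvC.pos.and EvC.rad))).mono ?_
  rintro q ⟨⟨h1, h2⟩, h3, h4, hr⟩ d h
  have hM : 1 ≤ q.M₀ := h4.2.2.1
  have hT : 0 < q.rT := h4.1.2.2.2.2.2.2.2.1
  have hR : 0 < q.R := by linarith [h4.2.2.2.2.2.2.2]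
  obtain ⟨g1, g2, g3, g4, g5⟩ := h3 (by norm_num) d h
  have hX := h.X_sm hr hM hT hR
  have hu := h.u_sm g1
  have hcv : ∀ i, ContDiff ℝ ∞ (d.cv q i) := fun i => by
    rw [← contDiffOn_univ]
    exact cv_sm (h1 d h) hu.contDiffOn g4.contDiffOn (fun z _ => ((h2 d h).2 z).1)
      (fun i => (hX i).contDiffOn) i
  exact
    { cp := h1 d h
      g := g1
      rq := g4
      rq0 := fun z => ((h2 d h).2 z).1
      u := hu
      u0 := h.u0_sm
      G0 := h.G0_sm hr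
      G0n := fun z => PkOk.G0_nonneg hr z
      W0 := h.W0_sm hr
      NG := h.NG_sm hr
      NGg := fun z => h.NG_ge hr z
      X := hX
      cv := hcv
      ch := fun k => by
        rw [← contDiffOn_univ]
        exact pr_sm Fl_pair _ _ fun i _ => (hcv i).contDiffOn }

end Vale.Agent.P088.R2.H31.EP
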