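import Vale.Agent.P088.R2.H509.EP.DW
import Vale.Agent.P088.R2.H710.EP.GR
import Vale.Agent.P088.R2.H313.EP.MuE
import Vale.Agent.P088.R2.H932.EP.Pk1

/-!
# P088, stage 3, EST': the true weight and the cut-offs at the tubes

In the region `TR` of the tubes: the correction of the level is absent, `e^u₀ ≤ aV Φ'(u₀)`,
`|D W| ≤ CX Φ'(u₀)`, `|D χ_k| ≤ BD` for the leaves `T1`, `T2`, `A1`, `P1`, `P2`, `A2`.
-/

open Set Filter
open scoped ContDiff Topology

noncomputable section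

namespace Vale.Agent.P088.R2.H509.DT

open Vale.Agent.P088.LR Vale.Agent.P088.HY Vale.Agent.P088.R2.H31.EP
open Vale.Agent.P088.R2.H710.GP Vale.Agent.P088.R2.H867.EP
open Vale.Agent.P088.R2.H509.Jet Vale.Agent.P088.R2.H509.TG Vale.Agent.P088.R2.H509.DW
open Vale.Agent.P088.R2.H464.Cu (mid rq)

variable {n : ℕ} {q : Cst} {d : Pk n} {z : VV n}

/-! ## Constants -/

theorem nbM_r₁ {Af : Cst → ℝ} (hAf : NB_M₀ Af) : EvC fun q => Af q ≤ q.r₁ * Real.exp (-1) := by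
  have h := EvC.at_M₀ (fun q t => 0 < q.c' → Af q ≤ q.c' * t / 2 * Real.exp (-1)) fun q => by
    by_cases h : 0 < q.c'
    · refine (eventually_ge_atTop (2 * Real.exp 1 * Af q / q.c')).mono fun t ht _ => ?_
      rw [div_le_iff₀ h] at ht
      rw [Real.exp_neg, ← div_eq_mul_inv, le_div_iff₀ (Real.exp_pos 1)]
      linarith
    · exact Eventually.of_forall fun _ h' => absurd h' h
  refine (EvC.pos.and h).mono fun q hq => ?_
  have h1 := hq.2 hq.1.2.1.2.2.1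
  rw [hAf] at h1
  exact h1

theorem evGD (n : ℕ) : EvC (GD n) := by
  have hn : (0 : ℝ) ≤ n := Nat.cast_nonneg n
  refine ((evG.and EvC.pos).and ((EvC.ε_le (fun _ => 1 / (4 * (n + 1) ^ 2)) fun _ => rfl).and
    (nbM_r₁ (Af := fun q => 5 * q.p₁) fun _ => rfl))).mono ?_
  rintro q ⟨⟨g, p⟩, h1, h2⟩
  have e0 : 0 < q.ε := p.2.2.2.2.1
  have h1 := h1 (by positivity)
  rw [le_div_iff₀ (by positivity)] at h1
  have hp := Cst.p₁_ge g.rad
  refine { toGC := g, ε0 := e0, ε1 := by nlinarith, εn := by nlinarith, ε2 := by nlinarith,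
           rd := ?_ }
  have h3 : (5 * q.p₁) ^ 2 ≤ (q.r₁ * Real.exp (-1)) ^ 2 :=
    pow_le_pow_left₀ (by linarith) h2 2
  nlinarith

/-- `e^u₀ ≤ aV Φ'(u₀)`. -/
def aV (q : Cst) : ℝ := 1 / (Real.exp 2 * q.ν₁)

/-- The bound of the profile. -/
def S₃ (q : Cst) : ℝ := prS q.e₁ ((3 * q.p₁) ^ 2)

/-- The bound of `D r²`. -/
def Xr (n : ℕ) (q : Cst) : ℝ := kD n q.e₁ + 12 * n * q.p₁

/-- The bound of `D W / Φ'`. -/
def CX (n : ℕ) (q : Cst) : ℝ := CW n q.e₁ * aV q + CF n 1 q * (1 + aV q * S₃ q)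

/-- The bound of `D χ_k`. -/
def BD (n : ℕ) (q : Cst) : ℝ := BF * (2 / (3 * q.c₀ ^ 2) * Xr n q +
  2 / (q.p₂ ^ 2 - q.p₁ ^ 2) * Xr n q + 4 * (CF n 1 q * (1 + 1 / q.rT ^ 2)))

theorem CX_nb : NB_rT (CX n) := fun _ => rfl
theorem BD_nb : NB_ηc (BD n) := fun _ => rfl
theorem aV_nb : NB_rT aV := fun _ => rfl
theorem S₃_nb : NB_rT S₃ := fun _ => rfl

/-- The constant for `μ = 0`. -/
def aM (q : Cst) : ℝ := Real.exp 11 / q.ν₁

/-- All the conditions. -/
structure DTC (n : ℕ) (q : Cst) : Prop where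
  gt : GT n q
  gd : GD n q
  db : ∀ d : Pk n, PkOk q d → ∀ z, DWr q d z → DB n 1 q d z (CF n 1 q)
  lit : ∀ d : Pk n, PkOk q d → LitSm q d
  mu : ∀ d : Pk n, PkOk q d → ∀ s u : ℝ, |u - 2 * s| ≤ 1 → Real.exp u ≤ aM q * deriv d.Φ u →
    ∀ᶠ t in 𝓝 s, d.μc q t = 0

theorem evDT (hn : 1 ≤ n) : EvC (DTC n) :=
  (((evGT n).and (evGD n)).and (((evDB hn 1).and (EvC.litSm n)).and
    (H313.EP.EvC.mu0 (n := n) aM fun _ => rfl))).mono fun _ hq =>
    ⟨hq.1.1, hq.1.2, hq.2.1.1, hq.2.1.2, fun d h s u a b => (hq.2.2 d h s u a b).2.1⟩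

/-! ## The slope -/

theorem aV_pos (hq : GT n q) : 0 < aV q := by
  have := hq.wc.ν₁
  unfold aV
  positivity

theorem E_le (hq : GT n q) (h : PkOk q d) (hz : TR q d z) :
    Real.exp (d.u0 z) ≤ aV q * deriv d.Φ (d.u0 z) := by
  have h1 := hz.lo hq h
  have hν := hq.wc.ν₁
  unfold aV
  rw [div_mul_eq_mul_div, one_mul, le_div_iff₀ (by positivity)]
  linarith

theorem S₃_le (hq : GT n q) {s : ℝ} (h0 : 0 ≤ s) (h1 : s ≤ (3 * q.p₁) ^ 2) : prS q.e₁ s ≤ S₃ q :=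
  S_mono hq.gc.rad.e0 h0 h1

theorem S₃_nn (hq : GT n q) : 0 ≤ S₃ q := by
  have hp := Cst.p₁_ge hq.gc.rad
  have h := S_ge' hq.gc.rad.e0 (r := 3 * q.p₁) (by linarith)
  unfold S₃
  linarith

/-- `NG ≤ (1 + aV S₃) N`. -/
theorem NG_le (hq : GT n q) (h : PkOk q d) (hz : TR q d z) :
    d.NG q z ≤ (1 + aV q * S₃ q) * deriv d.Φ (d.u0 z) := by
  have h1 := E_le hq h hz
  have hp := Cst.p₁_ge hq.gc.rad
  have h3 := p₃_lt hq.gc.rad
  have h4 := p₃_ge hq.gc.rad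
  have h2 := S₃_le hq (qq_nonneg z) (hz.q2.trans (by nlinarith))
  have hE := Real.exp_pos (d.u0 z)
  have hS := S₃_nn hq
  have e : d.NG q z = deriv d.Φ (d.u0 z) + Real.exp (d.u0 z) * prS q.e₁ (qq z) := rfl
  have h5 : Real.exp (d.u0 z) * prS q.e₁ (qq z) ≤ aV q * deriv d.Φ (d.u0 z) * S₃ q :=
    (mul_le_mul_of_nonneg_left h2 hE.le).trans (mul_le_mul_of_nonneg_right h1 hS)
  rw [e]
  linarith

/-- The slope grows at most with the rate `41 / 20`. -/
theorem N_slow (h : PkOk q d) {a b : ℝ} (hab : a ≤ b) (hb : b ≤ d.uta q) :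
    deriv d.Φ b ≤ deriv d.Φ a * Real.exp (41 / 20 * (b - a)) := by
  have hd : ∀ v, HasDerivAt (fun v => deriv d.Φ v * Real.exp (-(41 / 20 * v)))
      ((deriv (deriv d.Φ) v - 41 / 20 * deriv d.Φ v) * Real.exp (-(41 / 20 * v))) v := by
    intro v
    have h1 : HasDerivAt (deriv d.Φ) (deriv (deriv d.Φ) v) v :=
      (h.Φ's.differentiable (by simp) v).hasDerivAt
    have h2 : HasDerivAt (fun v : ℝ => -(41 / 20 * v)) (-(41 / 20)) v := by
      have := ((hasDerivAt_id v).const_mul (41 / 20 : ℝ)).neg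
      rwa [mul_one] at this
    refine (h1.mul h2.exp).congr_deriv ?_
    ring
  have hm : AntitoneOn (fun v => deriv d.Φ v * Real.exp (-(41 / 20 * v))) (Iic (d.uta q)) := by
    refine antitoneOn_of_deriv_nonpos (convex_Iic _)
      (fun v _ => (hd v).continuousAt.continuousWithinAt)
      (fun v _ => (hd v).differentiableAt.differentiableWithinAt) fun v hv => ?_
    rw [interior_Iic] at hv
    rw [(hd v).deriv]
    have h3 := h.top.k1 v (le_of_lt hv)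
    exact mul_nonpos_of_nonpos_of_nonneg (by linarith) (Real.exp_pos _).le
  have h1 : deriv d.Φ b * Real.exp (-(41 / 20 * b)) ≤ deriv d.Φ a * Real.exp (-(41 / 20 * a)) :=
    hm (mem_Iic.2 (hab.trans hb)) (mem_Iic.2 hb) hab
  have h2 := mul_le_mul_of_nonneg_right h1 (Real.exp_pos (41 / 20 * b)).le
  rw [mul_assoc, ← Real.exp_add, neg_add_cancel, Real.exp_zero, mul_one, mul_assoc,
    ← Real.exp_add] at h2
  refine h2.trans (le_of_eq ?_)
  congr 2
  ring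

/-! ## The level function -/

theorem w_le (I : H404.INF.InfC q) (h : PkOk q d) {x : V n} (hx : d.l x ≤ d.l₀ q + 3 * q.R) :
    √(HY.sq (H475.wR n q.σ q.R x)) ≤ 101 / 100 := by
  have h1 := (H404.INF.gl_le I h (a := 3)).2 hx
  have h2 := (H404.INF.lvG I h).g.t_le I.σ0 (by norm_num) h1
  have := I.σ1
  have h3 : √(HY.sq (H475.wR n q.σ q.R x)) ≤ 1 + q.σ * 3 := h2
  linarith

theorem w_mid (x y : V n) (hx : √(HY.sq (H475.wR n q.σ q.R x)) ≤ 101 / 100)
    (hy : √(HY.sq (H475.wR n q.σ q.R y)) ≤ 101 / 100) :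
    √(HY.sq (H475.wR n q.σ q.R ((1 / 2 : ℝ) • (x + y)))) ≤ 101 / 100 := by
  have h1 := H932.EP.wR_comb (n := n) q.σ q.R x y (a := 1 / 2) (b := 1 / 2) (by norm_num)
  rw [smul_add, h1]
  refine (H475.en_add _ _).trans ?_
  rw [H475.en_smul, H475.en_smul, abs_of_pos (by norm_num : (0 : ℝ) < 1 / 2)]
  linarith

theorem l_lip (I : H404.INF.InfC q) (h : PkOk q d) {x y : V n}
    (hx : √(HY.sq (H475.wR n q.σ q.R x)) ≤ 101 / 100)
    (hy : √(HY.sq (H475.wR n q.σ q.R y)) ≤ 101 / 100) :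
    |d.l x - d.l y| ≤ 101 / 100 * √(HY.sq (x - y)) := by
  have L := H404.INF.lvG I h
  have hR := L.R0
  have h1 := L.g.lip (q.R⁻¹ • x) (q.R⁻¹ • y) hx hy
  rw [← smul_sub, H475.en_smul, abs_of_pos (inv_pos.2 hR)] at h1
  rw [L.eq x, L.eq y, add_sub_add_left_eq_sub, ← mul_sub, abs_mul, abs_of_pos hR]
  calc _ ≤ q.R * (101 / 100 * (q.R⁻¹ * √(HY.sq (x - y)))) := by gcongr
    _ = _ := by field_simp

/-! ## The correction is absent -/

theorem mid_close (hq : GT n q) (h : PkOk q d) (hz : TR q d z) (h3 : rr z ≤ 3) :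
    |d.u0 z - 2 * d.l (mid z)| ≤ 4 := by
  have I := hq.gc.inf
  have hLv := H404.INF.lvG I h
  have hR := I.R0
  have g1 := (hLv.l12 z.1).1 hz.no.g1
  have g2 := (hLv.l12 z.2).1 hz.no.g2
  have w1 := w_le I h (x := z.1) (by linarith)
  have w2 := w_le I h (x := z.2) (by linarith)
  have w3 := w_mid (q := q) z.1 z.2 w1 w2
  have k1 := l_lip I h (x := mid z) (y := z.1) w3 w1
  have k2 := l_lip I h (x := mid z) (y := z.2) w3 w2
  have e3 : mid z - z.1 = (-(1 / 2) : ℝ) • (z.1 - z.2) := by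
    unfold mid; module
  have e4 : mid z - z.2 = (1 / 2 : ℝ) • (z.1 - z.2) := by
    unfold mid; module
  have hd : √(HY.sq (z.1 - z.2)) = rr z := rfl
  rw [e3, H475.en_smul, hd] at k1
  rw [e4, H475.en_smul, hd] at k2
  have k4 : |(-(1 / 2) : ℝ)| = 1 / 2 := by norm_num
  have k5 : |(1 / 2 : ℝ)| = 1 / 2 := by norm_num
  rw [k4] at k1
  rw [k5] at k2
  obtain ⟨a1, a2⟩ := abs_le.1 k1
  obtain ⟨b1, b2⟩ := abs_le.1 k2
  have e : d.u0 z = d.l z.1 + d.l z.2 := rfl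
  rw [e, abs_le]
  constructor <;> linarith

theorem u_ev (hq : DTC n q) (h : PkOk q d) (hz : TR q d z) : ∀ᶠ w in 𝓝 z, d.u q w = d.u0 w := by
  rcases le_total 3 (rr z) with h3 | h3
  · exact u_eq hq.gd h h3
  have h1 := mid_close hq.gt h hz h3
  set s := d.l (mid z) with hs
  obtain ⟨a1, a2⟩ := abs_le.1 h1
  have hu := hz.u_lt hq.gt h
  have eta' : d.uta q = 2 * d.l₀ q + 45 / 10 * q.R := rfl
  have hN := h.N_pos hq.gt.gc.M1 (d.u0 z)
  have hν := hq.gt.wc.ν₁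
  have key : deriv d.Φ (d.u0 z) ≤ deriv d.Φ (2 * s) * Real.exp (41 / 5) := by
    rcases le_total (2 * s) (d.u0 z) with h4 | h4
    · have h5 := N_slow (d := d) h h4 (by linarith)
      refine h5.trans (mul_le_mul_of_nonneg_left (Real.exp_le_exp.2 (by linarith)) ?_)
      exact (h.N_pos hq.gt.gc.M1 _).le
    · have h5 := h.N_mono h4
      have h6 : (1 : ℝ) ≤ Real.exp (41 / 5) := Real.one_le_exp (by norm_num)
      have h7 := (h.N_pos hq.gt.gc.M1 (2 * s)).le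
      nlinarith
  have hE := E_le hq.gt h hz
  have h5 : Real.exp (2 * s) ≤ aM q * deriv d.Φ (2 * s) := by
    have h6 : Real.exp (2 * s) ≤ Real.exp 4 * Real.exp (d.u0 z) := by
      rw [← Real.exp_add]
      exact Real.exp_le_exp.2 (by linarith)
    have h7 : Real.exp 4 * Real.exp (d.u0 z) ≤
        Real.exp 4 * (aV q * (deriv d.Φ (2 * s) * Real.exp (41 / 5))) :=
      mul_le_mul_of_nonneg_left (hE.trans (mul_le_mul_of_nonneg_left key (aV_pos hq.gt).le))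
        (Real.exp_pos _).le
    refine h6.trans (h7.trans ?_)
    have h8 : Real.exp 4 * Real.exp (41 / 5) ≤ Real.exp 11 * Real.exp 2 := by
      rw [← Real.exp_add, ← Real.exp_add]
      exact Real.exp_le_exp.2 (by norm_num)
    have h9 : 0 ≤ deriv d.Φ (2 * s) := (h.N_pos hq.gt.gc.M1 _).le
    unfold aV aM
    rw [show Real.exp 4 * (1 / (Real.exp 2 * q.ν₁) * (deriv d.Φ (2 * s) * Real.exp (41 / 5))) =
      (Real.exp 4 * Real.exp (41 / 5)) * (deriv d.Φ (2 * s) / (Real.exp 2 * q.ν₁)) by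
        field_simp]
    have h10 : 0 ≤ deriv d.Φ (2 * s) / (Real.exp 2 * q.ν₁) := by positivity
    refine (mul_le_mul_of_nonneg_right h8 h10).trans (le_of_eq ?_)
    field_simp
  have h6 := hq.mu d h s (2 * s) (by simp) h5
  have hc : Continuous fun w : VV n => d.l (mid w) :=
    h.l_sm.continuous.comp (by unfold mid; fun_prop)
  have h7 : ∀ᶠ w in 𝓝 z, d.μc q (d.l (mid w)) = 0 := (hc.tendsto z).eventually h6
  filter_upwards [h7] with w hw
  have e : d.u q w = d.l w.1 + d.l w.2 + 2 * (d.χ (d.r2 w) * d.μc q (d.l (mid w))) := rfl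
  rw [e, hw]
  unfold Pk.u0
  ring

/-! ## The gradient of the true weight -/

theorem in_US (hq : GT n q) (hz : TR q d z) : z ∈ (US q : Set (VV n)) := by
  have hp := Cst.p₁_ge hq.gc.rad
  have h1 := hz.r1 hq
  show qq z < (3 * q.p₁) ^ 2
  rw [← rr_sq]
  exact pow_lt_pow_left₀ (by linarith) (rr_nn z) (by norm_num)

theorem CF_one (hq : DTC n q) (h : PkOk q d) (hw : DWr q d z) : 1 ≤ CF n 1 q :=
  (hq.db d h z hw).one

/-- **`|D_v W| ≤ CX N |v|`.** -/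
theorem W_d (hq : DTC n q) (h : PkOk q d) (hz : TR q d z) (hw : DWr q d z) (v : VV n) :
    |fderiv ℝ (d.W q) z v| ≤ CX n q * deriv d.Φ (d.u0 z) * ‖v‖ := by
  have h1 := W_W0 hq.gd h hz.no (in_US hq.gt hz) (u_ev hq h hz) v
  have hdb := hq.db d h z hw
  have h2 := hdb.W.dir le_rfl v
  have hC := CW_nn hq.gd
  have hE := E_le hq.gt h hz
  have hN := h.N_pos hq.gt.gc.M1 (d.u0 z)
  have hv := norm_nonneg v
  have ha := aV_pos hq.gt
  have h3 : CW n q.e₁ * q.ε * Real.exp (d.u0 z) * ‖v‖ ≤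
      CW n q.e₁ * aV q * deriv d.Φ (d.u0 z) * ‖v‖ := by
    refine mul_le_mul_of_nonneg_right ?_ hv
    have h4 : q.ε * Real.exp (d.u0 z) ≤ aV q * deriv d.Φ (d.u0 z) :=
      (mul_le_of_le_one_left (Real.exp_pos _).le hq.gd.ε1).trans hE
    calc CW n q.e₁ * q.ε * Real.exp (d.u0 z) = CW n q.e₁ * (q.ε * Real.exp (d.u0 z)) := by ring
      _ ≤ CW n q.e₁ * (aV q * deriv d.Φ (d.u0 z)) := mul_le_mul_of_nonneg_left h4 hC
      _ = _ := by ring
  have h5 : CF n 1 q * d.NG q z * ‖v‖ ≤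
      CF n 1 q * ((1 + aV q * S₃ q) * deriv d.Φ (d.u0 z)) * ‖v‖ :=
    mul_le_mul_of_nonneg_right (mul_le_mul_of_nonneg_left (NG_le hq.gt h hz)
      (by linarith [hdb.one])) hv
  have h6 : |fderiv ℝ (d.W q) z v| ≤ |fderiv ℝ (d.W q) z v - fderiv ℝ (d.W0 q) z v| +
      |fderiv ℝ (d.W0 q) z v| := by
    have := abs_add_le (fderiv ℝ (d.W q) z v - fderiv ℝ (d.W0 q) z v) (fderiv ℝ (d.W0 q) z v)
    rwa [sub_add_cancel] at this
  unfold CX
  linarith

/-! ## The cut-offs -/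

theorem r2_d (hq : GT n q) (hg : GD n q) (h : PkOk q d) (hz : TR q d z) (v : VV n) :
    |fderiv ℝ (rq (gi d.s₁)) z v| ≤ 1 / 2 * (Xr n q * ‖v‖) := by
  have hU := in_US hq hz
  have a2 := dist_1 hg h hU v
  have hp := Cst.p₁_ge hg.rad
  have k0 := kD_nn hg
  have hv := norm_nonneg v
  have h2 : HasFDerivAt (fun z => r2 (gi d.s₁) z - qq z)
      (fderiv ℝ (r2 (gi d.s₁)) z - Qd z) z := (r2_fd hg h z).sub (qq_fd z)
  rw [h2.fderiv] at a2
  have e : fderiv ℝ (r2 (gi d.s₁)) z v = (fderiv ℝ (r2 (gi d.s₁)) z - Qd z) v + Qd z v := by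
    simp
  have h3 := Qd_le (z := z) (q := q) hU (by linarith) v
  have h4 : kD n q.e₁ * q.ε * ‖v‖ ≤ kD n q.e₁ * ‖v‖ :=
    mul_le_mul_of_nonneg_right (mul_le_of_le_one_right k0 hg.ε1) hv
  have h5 : |fderiv ℝ (r2 (gi d.s₁)) z v| ≤ Xr n q * ‖v‖ := by
    rw [e]
    refine (abs_add_le _ _).trans ?_
    unfold Xr
    linarith
  have hd : DifferentiableAt ℝ (rq (gi d.s₁) : VV n → ℝ) z :=
    ((h.rq_sm hg.εn).differentiable (by simp)) z
  have e2 : fderiv ℝ (r2 (gi d.s₁)) z = (2 : ℝ) • fderiv ℝ (rq (gi d.s₁)) z := by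
    have : HasFDerivAt (r2 (gi d.s₁)) ((2 : ℝ) • fderiv ℝ (rq (gi d.s₁)) z) z :=
      hd.hasFDerivAt.const_mul 2
    exact this.fderiv
  rw [e2, _root_.smul_apply, smul_eq_mul, abs_mul, abs_two] at h5
  linarith

/-- The cuts off the diagonal. -/
def offC : Finset Cut := {.inf, .rs, .r, .far, .rp, .T1, .T2, .P1, .P2}

theorem path_off {k : Zo} (hk : OffN k) : path k ⊆ offC := by
  rcases hk with rfl | rfl | rfl | rfl | rfl | rfl <;> decide

theorem tinf_nn (q : Cst) (d : Pk n) (z : VV n) : 0 ≤ d.tinf q z := by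
  unfold Pk.tinf
  have h1 := Real.smoothTransition.nonneg (4 * qq z / (q.κ₁ * q.R) ^ 2 - 1)
  have h2 := Real.smoothTransition.nonneg (10 * (-(q.σ / q.R * d.u0 z) - 3 / 2))
  have h3 := Real.smoothTransition.nonneg (20 * (d.u0 z - 2 * d.l₀ q) / q.R - 92)
  linarith

/-- **`|D_v χ_k| ≤ BD |v|`.** -/
theorem ch_d (hq : DTC n q) (h : PkOk q d) (hz : TR q d z) (hw : DWr q d z) {k : Zo}
    (hk : OffN k) (v : VV n) : |fderiv ℝ (d.ch q k) z v| ≤ BD n q * ‖v‖ := by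
  have hL := hq.lit d h
  have hcv := hL.cv
  have hdb := hq.db d h z hw
  have hC := hdb.one
  have hrT := hq.gt.gc.rT0
  have hp := Cst.p₁_ge hq.gt.gc.rad
  have hc0 := hq.gt.c0
  have hv := norm_nonneg v
  have hcp := hL.cp
  have hρ : DifferentiableAt ℝ (rq (gi d.s₁) : VV n → ℝ) z := (hL.rq.differentiable (by simp)) z
  have hr := r2_d hq.gt hq.gd h hz v
  have hX : 0 ≤ Xr n q := by
    have := kD_nn hq.gd
    have hn : (0 : ℝ) ≤ n := Nat.cast_nonneg n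
    unfold Xr
    positivity
  have h1 := ch_d1 (U := univ) Fl_PB isOpen_univ k (fun i _ => (hcv i).contDiffOn) (mem_univ z) v
  refine h1.trans ?_
  have hB : 0 ≤ BF := zero_le_one.trans Fl_PB.one
  unfold BD
  rw [mul_assoc]
  refine mul_le_mul_of_nonneg_left ?_ hB
  have h2 : A1 (path k) (d.cv q) v z ≤ A1 offC (d.cv q) v z :=
    Finset.sum_le_sum_of_subset_of_nonneg (path_off hk) fun i _ _ =>
      mul_nonneg (on_nn _) (abs_nonneg _)
  refine h2.trans ?_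
  unfold A1 offC
  repeat rw [Finset.sum_insert (by decide)]
  rw [Finset.sum_singleton]
  have off0 : ∀ c : Cut, ¬(0 < d.cv q c z ∧ d.cv q c z < 1) →
      on (d.cv q c z) * |fderiv ℝ (d.cv q c) z v| = 0 := fun c hc => by
    rw [on_zero hc, zero_mul]
  have onb : ∀ c : Cut, on (d.cv q c z) * |fderiv ℝ (d.cv q c) z v| ≤
      |fderiv ℝ (d.cv q c) z v| := fun c =>
    mul_le_of_le_one_left (abs_nonneg _) (on_le _)
  have b1 : on (d.cv q .inf z) * |fderiv ℝ (d.cv q .inf) z v| = 0 := by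
    refine off0 _ fun hc => ?_
    have e : d.cv q .inf z = d.tinf q z := rfl
    rw [e, hz.tinf hq.gt h] at hc
    exact lt_irrefl _ hc.1
  have b2 : on (d.cv q .rs z) * |fderiv ℝ (d.cv q .rs) z v| = 0 := by
    refine off0 _ fun hc => ?_
    have e : d.cv q .rs z = (d.VS q (d.u q z) - 0) / 1 := rfl
    rw [e, hz.VS hq.gt h] at hc
    norm_num at hc
  have b3 : on (d.cv q .far z) * |fderiv ℝ (d.cv q .far) z v| = 0 := by
    refine off0 _ fun hc => ?_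
    have e : d.cv q .far z = (2 * rq (gi d.s₁) z - (3 / 2 * q.p₁) ^ 2) /
        ((2 * q.p₁) ^ 2 - (3 / 2 * q.p₁) ^ 2) := rfl
    have h4 := hz.far hq.gt h
    have h5 : d.r2 z = 2 * rq (gi d.s₁) z := rfl
    have h6 : d.cv q .far z ≤ 0 := by
      rw [e]
      exact div_nonpos_of_nonpos_of_nonneg (by linarith) (by nlinarith)
    linarith [hc.1]
  have b4 : on (d.cv q .r z) * |fderiv ℝ (d.cv q .r) z v| ≤
      2 / (3 * q.c₀ ^ 2) * Xr n q * ‖v‖ := by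
    refine (onb _).trans ?_
    have e : fderiv ℝ (d.cv q .r) z v = 2 / (3 * q.c₀ ^ 2) * fderiv ℝ (rq (gi d.s₁)) z v :=
      fd_tauR q.c₀ hρ v
    rw [e, abs_mul, abs_of_nonneg (by positivity : (0 : ℝ) ≤ 2 / (3 * q.c₀ ^ 2)), mul_assoc]
    refine mul_le_mul_of_nonneg_left (hr.trans ?_) (by positivity)
    have := mul_nonneg hX hv
    linarith
  have b5 : on (d.cv q .rp z) * |fderiv ℝ (d.cv q .rp) z v| ≤
      2 / (q.p₂ ^ 2 - q.p₁ ^ 2) * Xr n q * ‖v‖ := by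
    refine (onb _).trans ?_
    have e : fderiv ℝ (d.cv q .rp) z v = 2 / (q.p₂ ^ 2 - q.p₁ ^ 2) *
        fderiv ℝ (rq (gi d.s₁)) z v := fd_tauD q.p₁ q.p₂ hρ v
    have h7 : q.p₁ < q.p₂ := hcp.p₂
    have h8 : 0 ≤ 2 / (q.p₂ ^ 2 - q.p₁ ^ 2) := div_nonneg zero_le_two (by nlinarith)
    rw [e, abs_mul, abs_of_nonneg h8, mul_assoc]
    refine mul_le_mul_of_nonneg_left (hr.trans ?_) h8
    have := mul_nonneg hX hv
    linarith
  have hT : 0 < 1 / q.rT ^ 2 := by positivity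
  have h4T : 1 / (4 * q.rT) ^ 2 ≤ 1 / q.rT ^ 2 :=
    one_div_le_one_div_of_le (by positivity) (by nlinarith [sq_nonneg q.rT])
  have bx : ∀ t : ℝ, 0 < t → 1 / t ^ 2 ≤ 1 / q.rT ^ 2 → |fderiv ℝ (d.tx q t) z v| ≤
      CF n 1 q * (1 + 1 / q.rT ^ 2) * ‖v‖ := fun t h0 ht =>
    ((hdb.tx t h0).d1.dir le_rfl v).trans (mul_le_mul_of_nonneg_right
      (mul_le_mul_of_nonneg_left (by linarith) (by linarith)) hv)
  have b_y : ∀ t : ℝ, 0 < t → 1 / t ^ 2 ≤ 1 / q.rT ^ 2 → |fderiv ℝ (d.ty q t) z v| ≤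
      CF n 1 q * (1 + 1 / q.rT ^ 2) * ‖v‖ := fun t h0 ht =>
    ((hdb.ty t h0).d1.dir le_rfl v).trans (mul_le_mul_of_nonneg_right
      (mul_le_mul_of_nonneg_left (by linarith) (by linarith)) hv)
  have b6 := (onb .T1).trans (bx q.rT hrT le_rfl)
  have b7 := (onb .T2).trans (b_y q.rT hrT le_rfl)
  have b8 := (onb .P1).trans (bx (4 * q.rT) (by positivity) h4T)
  have b9 := (onb .P2).trans (b_y (4 * q.rT) (by positivity) h4T)
  rw [b1, b2, b3]
  linarith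

end Vale.Agent.P088.R2.H509.DT
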