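import Vale.Agent.P088.R2.H509.EP.Jet
import Vale.Agent.P088.R2.H509.EP.TG

/-!
# P088, stage 3, EST': all derivatives of the flat weight and of the tube variables

On `c₀² / 16 ≤ |x - y|² ≤ (3 p₁)²`, `u₀ ≤ uta` (all levels): `|D^j W0|, |D^j NG| ≤ C NG`,
`|D^j tx|, |D^j ty| ≤ C (1 + t⁻²)`, with `C` depending on the constants before `rT`.
-/

open Set Filter
open scoped ContDiff Topology Nat

noncomputable section

namespace Vale.Agent.P088.R2.H509.DW

open Vale.Agent.P088.LR Vale.Agent.P088.HY Vale.Agent.P088.R2.H31.EP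
open Vale.Agent.P088.R2.H710.GP Vale.Agent.P088.R2.H867.EP
open Vale.Agent.P088.R2.H509.Jet Vale.Agent.P088.R2.H509.TG
open Vale.Agent.P088.R2.H222 (Lk Bk Sk norm_comp_right exists_Sk bk_qq c2 c2_nonneg)

variable {n : ℕ} {q : Cst} {d : Pk n} {z : VV n} {k : ℕ}

/-- The region. -/
structure DWr (q : Cst) (d : Pk n) (z : VV n) : Prop where
  q1 : q.c₀ ^ 2 / 16 ≤ qq z
  q2 : qq z ≤ (3 * q.p₁) ^ 2
  u : d.u0 z ≤ d.uta q
  l1 : d.l z.1 < d.l₀ q + 5 * q.R
  l2 : d.l z.2 < d.l₀ q + 5 * q.R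

/-! ## The constants -/

open Classical in
/-- The constant of the profile. -/
def MS (k : ℕ) (e a : ℝ) : ℝ :=
  if h : ∃ M : ℝ, 0 ≤ M ∧ ∀ j ≤ k, ∀ s ∈ Icc (0 : ℝ) a, |iteratedDeriv j (prS e) s| ≤ M then
    h.choose else 0

theorem MS_nn (k : ℕ) (e a : ℝ) : 0 ≤ MS k e a := by
  unfold MS
  split_ifs with h
  · exact h.choose_spec.1
  · exact le_rfl

theorem MS_ok {e : ℝ} (he : 0 < e) (a : ℝ) {j : ℕ} (hj : j ≤ k) {s : ℝ} (h0 : 0 ≤ s)
    (h1 : s ≤ a) : |iteratedDeriv j (prS e) s| ≤ MS k e a := by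
  have h : ∃ M : ℝ, 0 ≤ M ∧ ∀ j ≤ k, ∀ s ∈ Icc (0 : ℝ) a, |iteratedDeriv j (prS e) s| ≤ M := by
    obtain ⟨M, hM, hS⟩ := exists_Sk (H606.EP.prS_sm he) (isCompact_Icc (a := 0) (b := a)) k
    exact ⟨M, hM, fun j hj s hs => hS.b j hj s hs⟩
  have e2 : MS k e a = h.choose := by
    unfold MS
    exact dif_pos h
  rw [e2]
  exact h.choose_spec.2 j hj s ⟨h0, h1⟩

/-- The constant of the slope. -/
def CS (k : ℕ) (q : Cst) : ℝ := 1 + 41 / 20 * ∑ j ∈ Finset.range k, |q.ph.Ct j|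

theorem CS_one (k : ℕ) (q : Cst) : 1 ≤ CS k q := by
  have : 0 ≤ ∑ j ∈ Finset.range k, |q.ph.Ct j| := Finset.sum_nonneg fun _ _ => abs_nonneg _
  unfold CS
  linarith

/-- The constants of `u₀`, `|x - y|²`. -/
def Bu (n : ℕ) : ℝ := 4 * n + 1
def Bq (n k : ℕ) (q : Cst) : ℝ := 1 + c2 n k (3 * q.p₁ + 1)

/-- The constants of `G0` (relative to `E`), of `Φ' ∘ u₀` and of everything. -/
def CG (n k : ℕ) (q : Cst) : ℝ :=
  2 ^ k * (k ! * Bu n ^ k) * (k ! * MS k q.e₁ ((3 * q.p₁) ^ 2) * Bq n k q ^ k)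
def CN (n k : ℕ) (q : Cst) : ℝ := k ! * CS (k + 1) q * Bu n ^ k
def CD (n k : ℕ) (q : Cst) : ℝ := 1 + CG n k q * (32 / q.c₀ ^ 2) + CN n k q

/-- The conditions on the constants. -/
structure DWC (n k : ℕ) (q : Cst) : Prop where
  gt : GT n q
  lk : ∀ kap Gs : ℝ, Lk k {x : V n | H475.levG n q.σ q.R kap Gs x <
    H475.lam0 q.R kap Gs + 5 * q.R} (2 * n) (H475.levG n q.σ q.R kap Gs)

theorem evDWC (hn : 1 ≤ n) (k : ℕ) : EvC (DWC n k) := by
  have h1 : EvC fun q => (0 < q.σ ∧ q.σ ≤ 1 / 5000) → ∀ kap Gs : ℝ,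
      Lk k {x : V n | H475.levG n q.σ q.R kap Gs x < H475.lam0 q.R kap Gs + 5 * q.R} (2 * n)
        (H475.levG n q.σ q.R kap Gs) := by
    refine EvC.at_R (fun q t => (0 < q.σ ∧ q.σ ≤ 1 / 5000) → ∀ kap Gs : ℝ,
      Lk k {x : V n | H475.levG n q.σ t kap Gs x < H475.lam0 t kap Gs + 5 * t} (2 * n)
        (H475.levG n q.σ t kap Gs)) fun q => ?_
    by_cases hc : 0 < q.σ ∧ q.σ ≤ 1 / 5000
    · obtain ⟨R0, -, H⟩ := H222.lev_Lk (n := n) hn hc.1 hc.2 k
      exact (eventually_ge_atTop R0).mono fun t ht _ kap Gs => H t kap Gs ht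
    · exact Eventually.of_forall fun _ h => absurd h hc
  exact ((evGT n).and h1).mono fun q hq => ⟨hq.1, hq.2 ⟨hq.1.gc.inf.σ0, hq.1.gc.inf.σ1⟩⟩

/-! ## The pieces -/

theorem lk_l (hq : DWC n k q) (h : PkOk q d) :
    Lk k {x : V n | d.l x < d.l₀ q + 5 * q.R} (2 * n) d.l := by
  have e : d.l₀ q = H475.lam0 q.R d.kap d.Gs := rfl
  rw [h.lev.lit, e]
  exact hq.lk d.kap d.Gs

theorem d1_u0 (hq : DWC n k q) (h : PkOk q d) (hz : DWr q d z) : D1 k (4 * n) d.u0 z := by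
  have hl := lk_l hq h
  have e3 : D1 k (2 * n) (fun z : VV n => d.l z.1) z := fun j h1 hj =>
    (norm_comp_right (ContinuousLinearMap.fst ℝ (V n) (V n))
      (ContinuousLinearMap.norm_fst_le _ _ _) hl.o hl.s hz.l1 j).trans (hl.b j h1 hj _ hz.l1)
  have e4 : D1 k (2 * n) (fun z : VV n => d.l z.2) z := fun j h1 hj =>
    (norm_comp_right (ContinuousLinearMap.snd ℝ (V n) (V n))
      (ContinuousLinearMap.norm_snd_le _ _ _) hl.o hl.s hz.l2 j).trans (hl.b j h1 hj _ hz.l2)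
  exact (D1.add (h.l_sm.comp contDiff_fst) (h.l_sm.comp contDiff_snd) e3 e4).le (by linarith)

theorem Bu_one (n : ℕ) : 1 ≤ Bu n := by
  unfold Bu
  have : (0 : ℝ) ≤ n := Nat.cast_nonneg n
  linarith

theorem Bq_one (hp : 0 < q.p₁) : 1 ≤ Bq n k q := by
  unfold Bq
  have := c2_nonneg (n := n) (k := k) (r0 := 3 * q.p₁ + 1) (by positivity)
  linarith

theorem d1_qq (hp : 0 < q.p₁) (hz : qq z ≤ (3 * q.p₁) ^ 2) : D1 k (Bq n k q) (qq (n := n)) z := by
  have hU : IsOpen {w : VV n | qq w < (3 * q.p₁ + 1) ^ 2} :=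
    isOpen_lt qq_sm.continuous continuous_const
  have h1 := bk_qq (n := n) (k := k) (r0 := 3 * q.p₁ + 1) hU (by positivity)
    (fun w hw => le_of_lt hw)
  have hz' : z ∈ {w : VV n | qq w < (3 * q.p₁ + 1) ^ 2} := by
    show qq z < _
    nlinarith
  intro j _ hj
  refine (h1.b j hj z hz').trans ?_
  unfold Bq
  linarith

theorem slope1 (hq : DWC n k q) (h : PkOk q d) {u : ℝ} (hu : u ≤ d.uta q) {i : ℕ} (h1 : 1 ≤ i)
    (hi : i ≤ k) : |iteratedDeriv i d.Φ u| ≤ CS k q * deriv d.Φ u := by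
  have hN := h.N_pos hq.gt.gc.M1 u
  rcases i with _ | _ | j
  · omega
  · rw [iteratedDeriv_one, abs_of_pos hN]
    nlinarith [CS_one k q]
  · have h2 := h.top.kd j u hu
    have h3 := h.top.k1 u hu
    have h4 : q.ph.Ct j ≤ ∑ j ∈ Finset.range k, |q.ph.Ct j| :=
      (le_abs_self _).trans (Finset.single_le_sum (f := fun j => |q.ph.Ct j|)
        (fun _ _ => abs_nonneg _) (Finset.mem_range.2 (by omega)))
    have h5 : 0 ≤ ∑ j ∈ Finset.range k, |q.ph.Ct j| := Finset.sum_nonneg fun _ _ => abs_nonneg _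
    have h6 := (h.top.k0 u).le
    calc |iteratedDeriv (j + 2) d.Φ u| ≤ q.ph.Ct j * deriv (deriv d.Φ) u := h2
      _ ≤ (∑ j ∈ Finset.range k, |q.ph.Ct j|) * deriv (deriv d.Φ) u :=
          mul_le_mul_of_nonneg_right h4 h6
      _ ≤ (∑ j ∈ Finset.range k, |q.ph.Ct j|) * ((2 + 1 / 20) * deriv d.Φ u) :=
          mul_le_mul_of_nonneg_left h3 h5
      _ ≤ CS k q * deriv d.Φ u := by
          unfold CS
          nlinarith

/-- `Φ' ∘ u₀`. -/
theorem d0_N (hq : DWC n (k + 1) q) (h : PkOk q d) (hz : DWr q d z) :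
    D0 k (CN n k q * deriv d.Φ (d.u0 z)) (fun y => deriv d.Φ (d.u0 y)) z := by
  have h1 : D1 k (Bu n) d.u0 z := fun j h1 hj =>
    (d1_u0 hq h hz j h1 (by omega)).trans (by unfold Bu; linarith)
  have h2 := D1.comp (H := deriv d.Φ) (C := CS (k + 1) q * deriv d.Φ (d.u0 z)) h.Φ's h.u0_sm
    (Bu_one n) h1 fun i hi => by
      have := slope1 (i := i + 1) hq h hz.u (by omega) (by omega)
      rwa [iteratedDeriv_succ'] at this
  refine h2.le (le_of_eq ?_)
  unfold CN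
  ring

/-- `e^u₀`. -/
theorem d0_E (hq : DWC n k q) (h : PkOk q d) (hz : DWr q d z) :
    D0 k (k ! * Real.exp (d.u0 z) * Bu n ^ k) (fun y => Real.exp (d.u0 y)) z :=
  D1.comp (H := Real.exp) Real.contDiff_exp h.u0_sm (Bu_one n)
    ((d1_u0 hq h hz).le (by unfold Bu; linarith)) fun i _ => by
      rw [iteratedDeriv_eq_iterate, Real.iter_deriv_exp, abs_of_pos (Real.exp_pos _)]

/-- `S(|x - y|²)`. -/
theorem d0_S (hr : H509.Rad.Ok q.e₁ rp) (hz : DWr q d z) :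
    D0 k (k ! * MS k q.e₁ ((3 * q.p₁) ^ 2) * Bq n k q ^ k) (fun y => prS q.e₁ (qq y)) z := by
  have hp : 0 < q.p₁ := by linarith [Cst.p₁_ge hr]
  exact D1.comp (H := prS q.e₁) (H606.EP.prS_sm hr.e0) qq_sm (Bq_one hp) (d1_qq hp hz.q2)
    fun i hi => MS_ok hr.e0 _ hi (qq_nonneg z) hz.q2

theorem d0_G (hq : DWC n k q) (h : PkOk q d) (hz : DWr q d z) :
    D0 k (CG n k q * Real.exp (d.u0 z)) (d.G0 q) z := by
  have hr := hq.gt.gc.rad
  have h1 := D0.mul h.u0_sm.exp ((H606.EP.prS_sm hr.e0).comp qq_sm) (d0_E hq h hz)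
    (d0_S (k := k) hr hz)
  refine D0.le h1 (le_of_eq ?_)
  unfold CG
  ring

/-- `E ≤ (32 / c₀²) NG`. -/
theorem E_le (hq : GT n q) (h : PkOk q d) (hz : DWr q d z) :
    Real.exp (d.u0 z) ≤ 32 / q.c₀ ^ 2 * d.NG q z := by
  have he := hq.gc.rad.e0
  have hc := hq.c0
  have h1 := S_ge he (r := q.c₀ / 4) (by positivity) (by linarith [hq.c1])
  have h2 := S_mono he (s := (q.c₀ / 4) ^ 2) (t := qq z) (by positivity)
    (le_trans (le_of_eq (by ring)) hz.q1)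
  have h3 : q.c₀ ^ 2 / 32 ≤ prS q.e₁ (qq z) := by
    refine le_trans (le_of_eq ?_) (h1.trans h2)
    ring
  have hE := Real.exp_pos (d.u0 z)
  have hN := h.N_pos hq.gc.M1 (d.u0 z)
  have h4 : q.c₀ ^ 2 / 32 * Real.exp (d.u0 z) ≤ d.NG q z := by
    unfold Pk.NG Pk.G0
    nlinarith
  rw [div_mul_eq_mul_div, le_div_iff₀ (by positivity)]
  linarith

theorem CG_nn (hp : 0 < q.p₁) : 0 ≤ CG n k q := by
  have h1 := Bu_one n
  have h2 := Bq_one (n := n) (k := k) hp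
  have h3 := MS_nn k q.e₁ ((3 * q.p₁) ^ 2)
  unfold CG
  have : 0 ≤ Bu n := by linarith
  have : 0 ≤ Bq n k q := by linarith
  positivity

theorem CN_nn : 0 ≤ CN n k q := by
  have h1 := Bu_one n
  have h3 := CS_one (k + 1) q
  unfold CN
  have : 0 ≤ Bu n := by linarith
  have : 0 ≤ CS (k + 1) q := by linarith
  positivity

theorem CD_one (hp : 0 < q.p₁) : 1 ≤ CD n k q := by
  have h1 := CG_nn (n := n) (k := k) hp
  have h2 := CN_nn (n := n) (k := k) (q := q)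
  have : 0 ≤ CG n k q * (32 / q.c₀ ^ 2) := by positivity
  unfold CD
  linarith

/-! ## The flat weight -/

/-- **All derivatives of the flat weight.** -/
structure DWc (n k : ℕ) (q : Cst) (d : Pk n) (z : VV n) (C : ℝ) : Prop where
  one : 1 ≤ C
  u : D1 k (4 * n) d.u0 z
  Na : D0 k (C * deriv d.Φ (d.u0 z)) (fun y => deriv d.Φ (d.u0 y)) z
  G : D0 k (C * d.NG q z) (d.G0 q) z
  NG : D0 k (C * d.NG q z) (d.NG q) z
  W : D1 k (C * d.NG q z) (d.W0 q) z
  E : Real.exp (d.u0 z) ≤ C * d.NG q z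
  Np : 0 < d.NG q z

theorem dwc (hq : DWC n (k + 1) q) (h : PkOk q d) (hz : DWr q d z) :
    DWc n k q d z (CD n k q + 32 / q.c₀ ^ 2) := by
  have hr := hq.gt.gc.rad
  have hp : 0 < q.p₁ := by linarith [Cst.p₁_ge hr]
  have hqk : DWC n k q := ⟨hq.gt, fun kap Gs => ⟨(hq.lk kap Gs).o, (hq.lk kap Gs).s,
    fun j h1 hj => (hq.lk kap Gs).b j h1 (by omega)⟩⟩
  have hNG := NG_pos hq.gt.gc h z
  have hN := h.N_pos hq.gt.gc.M1 (d.u0 z)
  have hG := PkOk.G0_nonneg (d := d) hr z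
  have hE := E_le hq.gt h hz
  have hCG := CG_nn (n := n) (k := k) hp
  have hCN := CN_nn (n := n) (k := k) (q := q)
  have hCD := CD_one (n := n) (k := k) hp
  have h32 : 0 ≤ 32 / q.c₀ ^ 2 := by positivity
  have hNle : deriv d.Φ (d.u0 z) ≤ d.NG q z := by unfold Pk.NG; linarith
  have g1 : D0 k (CG n k q * (32 / q.c₀ ^ 2) * d.NG q z) (d.G0 q) z :=
    (d0_G hqk h hz).le (by
      have := mul_le_mul_of_nonneg_left hE hCG
      linarith)
  have n1 := d0_N hq h hz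
  have n2 : D0 k (CN n k q * d.NG q z) (fun y => deriv d.Φ (d.u0 y)) z :=
    n1.le (mul_le_mul_of_nonneg_left hNle hCN)
  have w1 : D1 k (CN n k q * deriv d.Φ (d.u0 z)) (fun y => d.Φ (d.u0 y)) z := by
    refine (D1.comp1 (H := d.Φ) (C := CS k q * deriv d.Φ (d.u0 z)) h.Φs h.u0_sm (Bu_one n)
      ((d1_u0 hqk h hz).le (by unfold Bu; linarith))
      (mul_nonneg (by linarith [CS_one k q]) hN.le) fun i h1 hi =>
        slope1 hqk h hz.u h1 hi).le ?_
    have hcs : CS k q ≤ CS (k + 1) q := by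
      unfold CS
      have := Finset.sum_le_sum_of_subset_of_nonneg (f := fun j => |q.ph.Ct j|)
        (Finset.range_mono (Nat.le_succ k)) fun _ _ _ => abs_nonneg _
      linarith
    have hb : 0 ≤ Bu n ^ k := pow_nonneg (by linarith [Bu_one n]) k
    unfold CN
    calc (k ! : ℝ) * (CS k q * deriv d.Φ (d.u0 z)) * Bu n ^ k
        ≤ k ! * (CS (k + 1) q * deriv d.Φ (d.u0 z)) * Bu n ^ k := by gcongr
      _ = _ := by ring
  refine ⟨by linarith, d1_u0 hqk h hz, n1.le ?_, g1.le ?_, ?_, ?_, ?_, hNG⟩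
  · refine mul_le_mul_of_nonneg_right ?_ hN.le
    have : 0 ≤ CG n k q * (32 / q.c₀ ^ 2) := by positivity
    unfold CD
    linarith
  · refine mul_le_mul_of_nonneg_right ?_ hNG.le
    unfold CD
    linarith
  · refine (D0.add (h.Φ's.comp h.u0_sm) (h.G0_sm hr) n2 g1).le ?_
    rw [← add_mul]
    refine mul_le_mul_of_nonneg_right ?_ hNG.le
    unfold CD
    linarith
  · refine (D1.add (h.Φs.comp h.u0_sm) (h.G0_sm hr)
      (w1.le (mul_le_mul_of_nonneg_left hNle hCN)) g1.d1).le ?_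
    rw [← add_mul]
    refine mul_le_mul_of_nonneg_right ?_ hNG.le
    unfold CD
    linarith
  · refine hE.trans (mul_le_mul_of_nonneg_right ?_ hNG.le)
    linarith

/-! ## The tube variables -/

/-- The constant of the tube variables. -/
def CT (n k : ℕ) (C : ℝ) : ℝ :=
  1 + 4 / 3 * (2 ^ k * (n * (2 ^ k * C * C)) * (k ! * cI k * C ^ k))

theorem tv {C t : ℝ} (hW : ContDiff ℝ ∞ (d.W0 q)) (hNs : ContDiff ℝ ∞ (d.NG q))
    (hp : ∀ y, 0 < d.NG q y) (ht : 0 < t) (h : DWc n (k + 1) q d z C) (e : Fin n → VV n)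
    (he : ∀ i, ‖e i‖ ≤ 1) :
    D0 k (CT n k C * (1 + 1 / t ^ 2)) (fun y =>
      (4 * (∑ i, fderiv ℝ (d.W0 q) y (e i) ^ 2) / (t * d.NG q y) ^ 2 - 1) / 3) z := by
  set N₀ := d.NG q z with hN₀
  have hNp : 0 < N₀ := h.Np
  have hC1 := h.one
  have hC0 : 0 ≤ C := by linarith
  set F : Fin n → VV n → ℝ := fun i y => 1 / N₀ * fderiv ℝ (d.W0 q) y (e i) with hF
  set g : VV n → ℝ := fun y => 1 / N₀ * d.NG q y with hg
  have hWd : ∀ i, ContDiff ℝ ∞ fun y => fderiv ℝ (d.W0 q) y (e i) := fun i =>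
    (hW.fderiv_right (m := ∞) le_rfl).clm_apply contDiff_const
  have hFs : ∀ i, ContDiff ℝ ∞ (F i) := fun i => contDiff_const.mul (hWd i)
  have hgs : ContDiff ℝ ∞ g := contDiff_const.mul hNs
  have hFb : ∀ i, D0 k C (F i) z := fun i => by
    have h1 := D0.cmul (1 / N₀) (hWd i) (D1.fd hW h.W (e i))
    refine h1.le ?_
    rw [abs_of_pos (by positivity)]
    have h2 : ‖e i‖ * (C * N₀) ≤ C * N₀ := mul_le_of_le_one_left (by positivity) (he i)
    calc 1 / N₀ * (‖e i‖ * (C * N₀)) ≤ 1 / N₀ * (C * N₀) :=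
          mul_le_mul_of_nonneg_left h2 (by positivity)
      _ = C := by field_simp
  have hgb : D1 k C g z := by
    have h1 : D0 k (C * N₀) (d.NG q) z := fun j hj => h.NG j (by omega)
    refine (D0.cmul (1 / N₀) hNs h1).d1.le ?_
    rw [abs_of_pos (by positivity)]
    refine le_of_eq ?_
    field_simp
  have hg1 : g z = 1 := by
    show 1 / N₀ * d.NG q z = 1
    rw [← hN₀]
    field_simp
  have hgp : ∀ y, 0 < g y := fun y => mul_pos (by positivity) (hp y)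
  have hi := D1.inv2 hgs hgp hg1 hC1 hgb
  have his : ContDiff ℝ ∞ fun y => (g y ^ 2)⁻¹ :=
    (hgs.pow 2).inv fun y => pow_ne_zero 2 (hgp y).ne'
  have hs : D0 k (∑ _i : Fin n, 2 ^ k * C * C) (fun y => ∑ i, F i y * F i y) z :=
    D0.sum Finset.univ (fun i => (hFs i).mul (hFs i)) fun i _ => D0.mul (hFs i) (hFs i) (hFb i) (hFb i)
  rw [Finset.sum_const, Finset.card_univ, Fintype.card_fin, nsmul_eq_mul] at hs
  have hss : ContDiff ℝ ∞ fun y => ∑ i, F i y * F i y :=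
    ContDiff.sum fun i _ => (hFs i).mul (hFs i)
  have hm := D0.cmul (4 / (3 * t ^ 2)) (hss.mul his) (D0.mul hss his hs hi)
  have ha := D0.add (contDiff_const.mul (hss.mul his)) contDiff_const hm
    (D0.const (k := k) (z := z) (-(1 / 3) : ℝ))
  have e1 : (fun y => 4 / (3 * t ^ 2) * ((∑ i, F i y * F i y) * (g y ^ 2)⁻¹) + -(1 / 3)) =
      fun y => (4 * (∑ i, fderiv ℝ (d.W0 q) y (e i) ^ 2) / (t * d.NG q y) ^ 2 - 1) / 3 := by
    funext y
    have h3 : ∑ i, F i y * F i y = (1 / N₀) ^ 2 * ∑ i, fderiv ℝ (d.W0 q) y (e i) ^ 2 := by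
      rw [Finset.mul_sum]
      exact Finset.sum_congr rfl fun i _ => by simp only [hF]; ring
    rw [h3]
    have h4 := (hp y).ne'
    simp only [hg]
    field_simp
    ring
  rw [e1] at ha
  refine ha.le ?_
  have hcI := cI_nn k
  have hX : 0 ≤ 2 ^ k * (n * (2 ^ k * C * C)) * (k ! * cI k * C ^ k) := by positivity
  have ht2 : 0 < 1 / t ^ 2 := by positivity
  rw [abs_of_pos (by positivity : 0 < 4 / (3 * t ^ 2)), abs_neg, abs_of_pos (by norm_num)]
  unfold CT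
  have e5 : 4 / (3 * t ^ 2) = 4 / 3 * (1 / t ^ 2) := by
    field_simp
  rw [e5]
  set X := 2 ^ k * (n * (2 ^ k * C * C)) * (k ! * cI k * C ^ k) with hXd
  nlinarith [mul_nonneg hX ht2.le]

theorem d0_tx {C t : ℝ} (hW : ContDiff ℝ ∞ (d.W0 q)) (hNs : ContDiff ℝ ∞ (d.NG q))
    (hp : ∀ y, 0 < d.NG q y) (ht : 0 < t) (h : DWc n (k + 1) q d z C) :
    D0 k (CT n k C * (1 + 1 / t ^ 2)) (d.tx q t) z :=
  tv hW hNs hp ht h (fun i => (Pi.single i 1, 0)) fun i => by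
    rw [Prod.norm_def, norm_zero, max_eq_left (norm_nonneg _)]
    exact (H932.EP.norm_single i).le

theorem d0_ty {C t : ℝ} (hW : ContDiff ℝ ∞ (d.W0 q)) (hNs : ContDiff ℝ ∞ (d.NG q))
    (hp : ∀ y, 0 < d.NG q y) (ht : 0 < t) (h : DWc n (k + 1) q d z C) :
    D0 k (CT n k C * (1 + 1 / t ^ 2)) (d.ty q t) z :=
  tv hW hNs hp ht h (fun i => (0, Pi.single i 1)) fun i => by
    rw [Prod.norm_def, norm_zero, max_eq_right (norm_nonneg _)]
    exact (H932.EP.norm_single i).le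

/-! ## Final forms -/

/-- The constant of everything. -/
def CF (n k : ℕ) (q : Cst) : ℝ :=
  CD n (k + 1) q + 32 / q.c₀ ^ 2 + CT n k (CD n (k + 1) q + 32 / q.c₀ ^ 2)

theorem CF_nb (n k : ℕ) : NB_rT (CF n k) := fun _ => rfl

/-- **The bounds.** -/
structure DB (n k : ℕ) (q : Cst) (d : Pk n) (z : VV n) (C : ℝ) : Prop extends
    DWc n k q d z C where
  tx : ∀ t : ℝ, 0 < t → D0 k (C * (1 + 1 / t ^ 2)) (d.tx q t) z
  ty : ∀ t : ℝ, 0 < t → D0 k (C * (1 + 1 / t ^ 2)) (d.ty q t) z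

theorem evDB (hn : 1 ≤ n) (k : ℕ) : EvC fun q => ∀ d : Pk n, PkOk q d → ∀ z, DWr q d z →
    DB n k q d z (CF n k q) := by
  refine ((evDWC hn (k + 2)).and (EvC.litSm n)).mono ?_
  rintro q ⟨hq, hL⟩ d h z hz
  have hp : 0 < q.p₁ := by linarith [Cst.p₁_ge hq.gt.gc.rad]
  have h1 := dwc (k := k + 1) hq h hz
  have hC := h1.one
  have hLs := hL d h
  have hNp : ∀ y, 0 < d.NG q y := fun y => NG_pos hq.gt.gc h y
  have hcI := cI_nn k
  set C := CD n (k + 1) q + 32 / q.c₀ ^ 2 with hCd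
  have hC0 : 0 ≤ C := by linarith
  have hX : 0 ≤ 4 / 3 * (2 ^ k * (n * (2 ^ k * C * C)) * (k ! * cI k * C ^ k)) := by positivity
  have hT : 1 ≤ CT n k C := by unfold CT; linarith
  have e : CF n k q = C + CT n k C := rfl
  have hN := h.N_pos hq.gt.gc.M1 (d.u0 z)
  have hle : C ≤ CF n k q := by rw [e]; linarith
  refine ⟨⟨hC.trans hle, fun j a b => h1.u j a (by omega), fun j hj => ?_, fun j hj => ?_,
    fun j hj => ?_, fun j a hj => ?_, ?_, h1.Np⟩, fun t ht => ?_, fun t ht => ?_⟩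
  · exact (h1.Na j (by omega)).trans (mul_le_mul_of_nonneg_right hle hN.le)
  · exact (h1.G j (by omega)).trans (mul_le_mul_of_nonneg_right hle h1.Np.le)
  · exact (h1.NG j (by omega)).trans (mul_le_mul_of_nonneg_right hle h1.Np.le)
  · exact (h1.W j a (by omega)).trans (mul_le_mul_of_nonneg_right hle h1.Np.le)
  · exact h1.E.trans (mul_le_mul_of_nonneg_right hle h1.Np.le)
  · refine (d0_tx hLs.W0 hLs.NG hNp ht h1).le (mul_le_mul_of_nonneg_right ?_ (by positivity))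
    rw [e]
    linarith
  · refine (d0_ty hLs.W0 hLs.NG hNp ht h1).le (mul_le_mul_of_nonneg_right ?_ (by positivity))
    rw [e]
    linarith

/-! ## Where the leaves off the diagonal are alive -/

/-- The leaves off the diagonal which are not far. -/
def OffN (k : Zo) : Prop := k = .T1 ∨ k = .T2 ∨ k = .A1 ∨ k = .P1 ∨ k = .P2 ∨ k = .A2

theorem off_reg (hq : GT n q) (h : PkOk q d) (hL : LitSm q d) {k : Zo} (hk : OffN k)
    (ha : d.ch q k z ≠ 0) : DWr q d z ∧ d.u0 z ≤ d.uta q - 1 := by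
  have hoff : Off k := by
    rcases hk with rfl | rfl | rfl | rfl | rfl | rfl <;> (unfold Off; decide)
  have hni : ¬Inf k := by
    rcases hk with rfl | rfl | rfl | rfl | rfl | rfl <;> (unfold Inf; decide)
  have hna : k ≠ .Af := by
    rcases hk with rfl | rfl | rfl | rfl | rfl | rfl <;> decide
  have hLv := H404.INF.lvG hq.gc.inf h
  have hR := hq.wc.R
  have hno := sd_near ha hni hq.gc.inf.κ0 hq.gc.inf.κ1 hLv
  have h1 := sd_off ha hoff hL.cp
  have h2 := sd_nf ha hoff hna hL.cp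
  have hp1 := Cst.p₁_ge hq.gc.rad
  obtain ⟨m1, m2⟩ := abs_le.1 (hq.met d h z)
  have h3 : dT q ≤ 1 / 4 := min_le_left _ _
  have h7 := qq_nonneg z
  have h9 : dT q * qq z ≤ 1 / 4 * qq z := mul_le_mul_of_nonneg_right h3 h7
  have hc := hq.c0
  have hu : d.u0 z ≤ d.uta q - 1 := by
    by_contra hcon
    have hcon' := not_le.1 hcon
    obtain ⟨u1, u2⟩ := abs_le.1 (u_close h z)
    have hup : d.u0 z ≤ 2 * d.l₀ q + 93 / 20 * q.R := hno.up
    have eta' : d.uta q = 2 * d.l₀ q + 45 / 10 * q.R := rfl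
    have etb : d.utb q = 2 * d.l₀ q + 47 / 10 * q.R := rfl
    have eth : d.uth q = 2 * d.l₀ q + 22 / 10 * q.R := rfl
    have hN := h.N_top hq.wc hLv.l1 (u := d.u q z) (by linarith) (by rw [etb]; linarith)
    have hNp := h.N_pos hq.gc.M1 (d.u q z)
    rcases sd_nRS ha (Or.inr hoff) hq.wc.nm hNp with h5 | h5
    · have h6 : d.N q z = deriv d.Φ (d.u q z) := rfl
      have h8 : d.E q z = Real.exp (d.u q z) := rfl
      rw [h6, h8] at h5
      have h10 : Real.exp 1 ≤ Real.exp 8 := Real.exp_le_exp.2 (by norm_num)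
      have h11 : 0 < q.nm * Real.exp (d.u q z) := mul_pos hq.wc.nm (Real.exp_pos _)
      nlinarith
    · rw [eth] at h5
      rw [eta'] at hcon'
      linarith
  have g1 := (hLv.l12 z.1).1 hno.g1
  have g2 := (hLv.l12 z.2).1 hno.g2
  refine ⟨⟨by nlinarith, by nlinarith, by linarith, by linarith, by linarith⟩, hu⟩

end Vale.Agent.P088.R2.H509.DW
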