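import Vale.Agent.P088.R2.H509.EP.Side

/-!
# P088, stage 3, EST': the two windows of the slope

Where `e² ν₁ E ≤ Φ' ≤ e⁻² nm E` (and `u < 2 l₀ + 93/20 R + 1`) one has `Φ'' = f Φ'` nearby, with
`f = 9/10` (first pass) or `f = 2` (reverse pass).
-/

open Set Filter
open scoped ContDiff Topology Matrix

noncomputable section

namespace Vale.Agent.P088.R2.H31.EP

open Vale.Agent.P088.LR Vale.Agent.P088.HY

variable {n : ℕ} {q : Cst} {d : Pk n} {u v f : ℝ}

/-- The slope grows with the rate `f` near `u`. -/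
structure Win (d : Pk n) (f u : ℝ) : Prop where
  k2 : ∀ v, |v - u| ≤ 1 → deriv (deriv d.Φ) v = f * deriv d.Φ v
  k1 : ∀ v, |v - u| ≤ 1 → deriv d.Φ v = deriv d.Φ u * Real.exp (f * (v - u))

theorem ode {Φ : ℝ → ℝ} (hs : ContDiff ℝ ∞ Φ)
    (h : ∀ v, |v - u| ≤ 1 → deriv (deriv Φ) v = f * deriv Φ v) (hv : |v - u| ≤ 1) :
    deriv Φ v = deriv Φ u * Real.exp (f * (v - u)) := by
  have hs1 : ContDiff ℝ ∞ (deriv Φ) := (contDiff_infty_iff_deriv.1 hs).2
  have hd : ∀ w ∈ Icc (u - 1) (u + 1),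
      HasDerivWithinAt (fun w => deriv Φ w * Real.exp (-(f * (w - u)))) 0 (Icc (u - 1) (u + 1)) w := by
    intro w hw
    have h1 : HasDerivAt (deriv Φ) (deriv (deriv Φ) w) w :=
      (hs1.differentiable (by simp) w).hasDerivAt
    have h2 : HasDerivAt (fun w : ℝ => -(f * (w - u))) (-f) w := by
      have := (((hasDerivAt_id w).sub_const u).const_mul f).neg
      rwa [mul_one] at this
    have h3 := h1.mul h2.exp
    rw [h w (abs_le.2 ⟨by linarith [hw.1], by linarith [hw.2]⟩)] at h3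
    refine (h3.congr_deriv ?_).hasDerivWithinAt
    ring
  have h4 := (convex_Icc (u - 1) (u + 1)).norm_image_sub_le_of_norm_hasDerivWithin_le (C := 0) hd
    (fun w _ => by simp) (x := u) (y := v) ⟨by linarith, by linarith⟩
    ⟨by linarith [(abs_le.1 hv).1], by linarith [(abs_le.1 hv).2]⟩
  have h5 : deriv Φ v * Real.exp (-(f * (v - u))) = deriv Φ u := by
    have h6 : ‖deriv Φ v * Real.exp (-(f * (v - u))) - deriv Φ u * Real.exp (-(f * (u - u)))‖ ≤ 0 := by
      simpa using h4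
    have h7 := norm_le_zero_iff.1 h6
    simp only [sub_self, mul_zero, neg_zero, Real.exp_zero, mul_one] at h7
    linarith
  rw [← h5, mul_assoc, ← Real.exp_add]
  simp

theorem Win.of (hs : ContDiff ℝ ∞ d.Φ)
    (h : ∀ v, |v - u| ≤ 1 → deriv (deriv d.Φ) v = f * deriv d.Φ v) : Win d f u :=
  ⟨h, fun _ hv => ode hs h hv⟩

/-- The constants for the windows. -/
structure WC (q : Cst) : Prop where
  ν₁ : 0 < q.ν₁
  nm : 0 < q.nm
  M₀ : 0 < q.M₀
  R : 100 ≤ q.R
  CT : 0 ≤ q.ph.CT
  Cb : 0 < q.ph.Cb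
  L : 2 ≤ q.L
  e1 : (1 + q.ph.CT) * (q.ph.Cb * q.M₀) * Real.exp 10 < q.ν₁ * Real.exp q.R
  e2 : q.nm * Real.exp 10 < q.M₀ * Real.exp (q.R / 20)

theorem EvC.wc : EvC WC := by
  have h1 : EvC fun q => 100 ≤ q.R :=
    EvC.at_R (fun _ t => 100 ≤ t) fun _ => eventually_ge_atTop _
  have h2 : EvC fun q => 0 < q.ν₁ →
      (1 + q.ph.CT) * (q.ph.Cb * q.M₀) * Real.exp 10 < q.ν₁ * Real.exp q.R := by
    refine EvC.at_R (fun q t => 0 < q.ν₁ →
      (1 + q.ph.CT) * (q.ph.Cb * q.M₀) * Real.exp 10 < q.ν₁ * Real.exp t) fun q => ?_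
    by_cases h : 0 < q.ν₁
    · have := (Real.tendsto_exp_atTop.const_mul_atTop h).eventually_gt_atTop
        ((1 + q.ph.CT) * (q.ph.Cb * q.M₀) * Real.exp 10)
      exact this.mono fun _ h1 _ => h1
    · exact Eventually.of_forall fun _ h1 => absurd h1 h
  have h3 : EvC fun q => 0 < q.M₀ → q.nm * Real.exp 10 < q.M₀ * Real.exp (q.R / 20) := by
    refine EvC.at_R (fun q t => 0 < q.M₀ → q.nm * Real.exp 10 < q.M₀ * Real.exp (t / 20))
      fun q => ?_
    by_cases h : 0 < q.M₀
    · have := ((Real.tendsto_exp_atTop.comp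
        (tendsto_id.atTop_div_const (by norm_num : (0 : ℝ) < 20))).const_mul_atTop
          h).eventually_gt_atTop (q.nm * Real.exp 10)
      exact this.mono fun _ h1 _ => h1
    · exact Eventually.of_forall fun _ h1 => absurd h1 h
  refine ((EvC.pos.and EvC.good).and (h1.and (h2.and h3))).mono ?_
  rintro q ⟨⟨⟨⟨a1, a2, a3, a4, a5, a6, a7, a8, a9, a10⟩, -, c1, -⟩, ⟨g, g2, -⟩, -⟩, b1, b2, b3⟩
  exact ⟨a7, by linarith, by linarith, b1, g.CT0.le, g.Cb0, g2, b2 a7, b3 (by linarith)⟩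

namespace PkOk

theorem Φ₁_le (h : PkOk q d) (u : ℝ) : deriv d.Φ₁ u ≤ q.ph.Cb * q.M₀ := h.ph.isΦ.n2 u

/-- Up to the second growth. -/
theorem N_le_th (h : PkOk q d) (w : WC q) (hu : u ≤ d.uth q) :
    deriv d.Φ u ≤ (1 + q.ph.CT) * (q.ph.Cb * q.M₀) := by
  have h1 := h.top.c1 u hu
  have h2 := h.Φ₁_le u
  have h3 : Real.exp (u - d.uth q) ≤ 1 := Real.exp_le_one_iff.2 (by linarith)
  have h4 := w.CT
  have h5 : (0 : ℝ) ≤ deriv d.Φ₁ u := w.M₀.le.trans (h.ph.isΦ.n1 u)
  have h6 : 1 + q.ph.CT * Real.exp (u - d.uth q) ≤ 1 + q.ph.CT := by nlinarith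
  calc deriv d.Φ u ≤ (1 + q.ph.CT * Real.exp (u - d.uth q)) * deriv d.Φ₁ u := h1
    _ ≤ (1 + q.ph.CT) * (q.ph.Cb * q.M₀) :=
      mul_le_mul h6 h2 h5 (by linarith)

theorem N_mono (h : PkOk q d) : Monotone (deriv d.Φ) :=
  monotone_of_deriv_nonneg (h.Φ's.differentiable (by simp)) fun u => (h.top.k0 u).le

/-- On the third growth `Φ' / E` increases. -/
theorem N_grow (h : PkOk q d) (w : WC q) {a b : ℝ} (ha : d.uta q ≤ a) (hab : a ≤ b)
    (hb : b ≤ d.utb q) : deriv d.Φ a * Real.exp (-a) ≤ deriv d.Φ b * Real.exp (-b) := by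
  have hd : ∀ v, HasDerivAt (fun v => deriv d.Φ v * Real.exp (-v))
      ((deriv (deriv d.Φ) v - deriv d.Φ v) * Real.exp (-v)) v := by
    intro v
    have h1 : HasDerivAt (deriv d.Φ) (deriv (deriv d.Φ) v) v :=
      (h.Φ's.differentiable (by simp) v).hasDerivAt
    have h3 := h1.mul (hasDerivAt_neg v).exp
    refine h3.congr_deriv ?_
    ring
  have hm : MonotoneOn (fun v => deriv d.Φ v * Real.exp (-v)) (Icc (d.uta q) (d.utb q)) := by
    refine monotoneOn_of_deriv_nonneg (convex_Icc _ _)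
      (fun v _ => (hd v).continuousAt.continuousWithinAt)
      (fun v _ => (hd v).differentiableAt.differentiableWithinAt) fun v hv => ?_
    rw [interior_Icc] at hv
    rw [(hd v).deriv]
    refine mul_nonneg ?_ (Real.exp_pos _).le
    have hN : 0 < deriv d.Φ v := lt_of_lt_of_le w.M₀ (h.N_ge v)
    rcases le_total v (d.uta q + 1) with h1 | h1
    · have := (h.top.x2 v hv.1.le h1).1
      linarith
    · have h2 := h.top.x3 v h1 hv.2.le
      rw [h2]
      have := w.L
      nlinarith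
  exact hm ⟨ha, hab.trans hb⟩ ⟨ha.trans hab, hb⟩ hab

/-- The top of the window of the second growth is not reached. -/
theorem N_top (h : PkOk q d) (w : WC q) (h1 : d.l₀ q ≤ 1 / 100 * q.R)
    (hu : d.uta q - 2 ≤ u) (hu' : u ≤ d.utb q) :
    q.nm * Real.exp 8 * Real.exp u < deriv d.Φ u := by
  have hR := w.R
  have eth : d.uth q = 2 * d.l₀ q + 22 / 10 * q.R := rfl
  have eta' : d.uta q = 2 * d.l₀ q + 45 / 10 * q.R := rfl
  have key : ∀ v, d.uta q - 2 ≤ v → v ≤ d.uta q →
      q.nm * Real.exp 8 < deriv d.Φ v * Real.exp (-v) := by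
    intro v hv hv'
    have h2 := h.top.y1 v (by rw [eth]; rw [eta'] at hv; linarith) hv'
    have h3 := h.N_ge (d.uth q)
    rw [h2, mul_assoc, ← Real.exp_add]
    have h4 : q.R / 20 - 2 ≤ 2 * (v - d.uth q) + -v := by
      rw [eth]
      rw [eta'] at hv
      linarith
    have h5 := Real.exp_le_exp.2 h4
    have h6 : q.nm * Real.exp 8 = q.nm * Real.exp 10 * Real.exp (-2) := by
      rw [mul_assoc, ← Real.exp_add]
      norm_num
    have h7 : q.M₀ * Real.exp (q.R / 20 - 2) = q.M₀ * Real.exp (q.R / 20) * Real.exp (-2) := by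
      rw [mul_assoc, ← Real.exp_add]
      ring_nf
    have h8 : q.nm * Real.exp 8 < q.M₀ * Real.exp (q.R / 20 - 2) := by
      rw [h6, h7]
      exact mul_lt_mul_of_pos_right w.e2 (Real.exp_pos _)
    refine h8.trans_le ?_
    exact mul_le_mul h3 h5 (Real.exp_pos _).le (w.M₀.le.trans h3)
  have h2 : q.nm * Real.exp 8 < deriv d.Φ u * Real.exp (-u) := by
    rcases le_total u (d.uta q) with h3 | h3
    · exact key u hu h3
    · exact (key (d.uta q) (by linarith) le_rfl).trans_le (h.N_grow w le_rfl h3 hu')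
  have h3 := mul_lt_mul_of_pos_right h2 (Real.exp_pos u)
  rwa [mul_assoc (deriv d.Φ u), ← Real.exp_add, neg_add_cancel, Real.exp_zero, mul_one] at h3

/-- **The two windows.** -/
theorem win (h : PkOk q d) (w : WC q) (h0 : 0 ≤ d.l₀ q) (h1 : d.l₀ q ≤ 1 / 100 * q.R)
    (hu : u ≤ 2 * d.l₀ q + 93 / 20 * q.R + 1)
    (H1 : Real.exp 2 * q.ν₁ * Real.exp u ≤ deriv d.Φ u)
    (H2 : Real.exp 2 * deriv d.Φ u ≤ q.nm * Real.exp u) :
    (u + 12 ≤ q.R ∧ u + 2 ≤ d.uth q / 2 ∧ Win d (9 / 10) u) ∨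
      (d.uth q + 2 ≤ u ∧ u + 2 ≤ d.uta q ∧ Win d 2 u) := by
  have hR := w.R
  have eth : d.uth q = 2 * d.l₀ q + 22 / 10 * q.R := rfl
  have eta' : d.uta q = 2 * d.l₀ q + 45 / 10 * q.R := rfl
  have etb : d.utb q = 2 * d.l₀ q + 47 / 10 * q.R := rfl
  have hCM : 0 < q.ph.Cb * q.M₀ := mul_pos w.Cb w.M₀
  have hCT := w.CT
  rcases le_or_gt u (d.uth q / 2) with c1 | c1
  · -- the first pass
    have e1 := h.top.e1 u c1
    have b1 := h.Φ₁_le u
    have b2 : Real.exp (u + 12) < Real.exp q.R := by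
      have a1 : q.ν₁ * Real.exp (u + 12) = Real.exp 2 * q.ν₁ * Real.exp u * Real.exp 10 := by
        rw [show u + 12 = 2 + u + 10 by ring, Real.exp_add, Real.exp_add]
        ring
      have a2 : Real.exp 2 * q.ν₁ * Real.exp u * Real.exp 10 ≤
          (1 + q.ph.CT) * (q.ph.Cb * q.M₀) * Real.exp 10 := by
        refine mul_le_mul_of_nonneg_right ?_ (Real.exp_pos _).le
        rw [e1] at H1
        nlinarith
      have a3 : q.ν₁ * Real.exp (u + 12) < q.ν₁ * Real.exp q.R := by
        rw [a1]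
        exact lt_of_le_of_lt a2 w.e1
      exact lt_of_mul_lt_mul_left a3 w.ν₁.le
    have b3 : u + 12 < q.R := Real.exp_lt_exp.1 b2
    refine Or.inl ⟨b3.le, by rw [eth]; linarith, Win.of h.Φs fun v hv => ?_⟩
    obtain ⟨v1, v2⟩ := abs_le.1 hv
    have c2 : v ≤ d.uth q / 2 := by rw [eth]; linarith
    rw [h.top.e2 v c2, h.top.e1 v c2]
    have e1v := h.top.e1 v c2
    have hE2 : Real.exp 2 = Real.exp 1 * Real.exp 1 := by
      rw [← Real.exp_add]
      norm_num
    have he1 : 1 ≤ Real.exp 1 := Real.one_le_exp (by norm_num)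
    rw [e1] at H1 H2
    have an := h.ph.isΦ.an.antitone
    have mo : Monotone (deriv d.Φ₁) :=
      monotone_of_deriv_nonneg (((contDiff_infty_iff_deriv.1 h.ph.isΦ.sm).2).differentiable
        (by simp)) fun u => (h.ph.isΦ.k0 u).le
    have hN : 0 < deriv d.Φ₁ u := lt_of_lt_of_le w.M₀ (h.ph.isΦ.n1 u)
    refine h.ph.isΦ.p1 v ?_ ?_
    · rcases le_total u v with h2 | h2
      · have h3 := mo h2
        have h4 : Real.exp v ≤ Real.exp 1 * Real.exp u := by
          rw [← Real.exp_add]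
          exact Real.exp_le_exp.2 (by linarith)
        calc q.ν₁ * Real.exp v ≤ q.ν₁ * (Real.exp 1 * Real.exp u) :=
              mul_le_mul_of_nonneg_left h4 w.ν₁.le
          _ ≤ Real.exp 2 * q.ν₁ * Real.exp u := by
              rw [hE2]
              have : 0 ≤ q.ν₁ * Real.exp 1 * Real.exp u := by
                have := w.ν₁
                positivity
              nlinarith
          _ ≤ _ := H1.trans h3
      · have h3 := an h2
        simp only at h3
        rw [div_le_div_iff₀ (Real.exp_pos _) (Real.exp_pos _)] at h3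
        have h4 : q.ν₁ * Real.exp u ≤ deriv d.Φ₁ u := by
          refine le_trans ?_ H1
          have : 0 ≤ q.ν₁ * Real.exp u := mul_nonneg w.ν₁.le (Real.exp_pos _).le
          have h5 : 1 ≤ Real.exp 2 := Real.one_le_exp (by norm_num)
          nlinarith
        have h5 := mul_le_mul_of_nonneg_right h4 (Real.exp_pos v).le
        have h6 : q.ν₁ * Real.exp v * Real.exp u ≤ deriv d.Φ₁ v * Real.exp u := by linarith
        exact le_of_mul_le_mul_right h6 (Real.exp_pos u)
    · rcases le_total u v with h2 | h2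
      · have h3 := an h2
        simp only at h3
        rw [div_le_div_iff₀ (Real.exp_pos _) (Real.exp_pos _)] at h3
        have h4 : deriv d.Φ₁ u ≤ q.nm * Real.exp u := by
          have h5 : 1 ≤ Real.exp 2 := Real.one_le_exp (by norm_num)
          nlinarith
        have h5 := mul_le_mul_of_nonneg_right h4 (Real.exp_pos v).le
        have h6 : deriv d.Φ₁ v * Real.exp u ≤ q.nm * Real.exp v * Real.exp u := by linarith
        exact le_of_mul_le_mul_right h6 (Real.exp_pos u)
      · have h3 := mo h2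
        have h4 : Real.exp u ≤ Real.exp 1 * Real.exp v := by
          rw [← Real.exp_add]
          exact Real.exp_le_exp.2 (by linarith)
        have h5 : Real.exp 2 * deriv d.Φ₁ u ≤ q.nm * (Real.exp 1 * Real.exp v) :=
          H2.trans (mul_le_mul_of_nonneg_left h4 w.nm.le)
        rw [hE2] at h5
        have h6 : Real.exp 1 * (Real.exp 1 * deriv d.Φ₁ u) ≤ Real.exp 1 * (q.nm * Real.exp v) := by
          linarith
        have h7 := le_of_mul_le_mul_left h6 (Real.exp_pos 1)
        nlinarith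
  · rcases le_or_gt u (d.uth q + 2) with c2 | c2
    · exfalso
      have b1 : deriv d.Φ u ≤ (1 + q.ph.CT) * (q.ph.Cb * q.M₀) * Real.exp 4 := by
        have hp : 0 ≤ (1 + q.ph.CT) * (q.ph.Cb * q.M₀) := by positivity
        rcases le_total u (d.uth q) with h2 | h2
        · refine (h.N_le_th w h2).trans (le_mul_of_one_le_right hp ?_)
          exact Real.one_le_exp (by norm_num)
        · rw [h.top.y1 u h2 (by rw [eta']; rw [eth] at c2; linarith)]
          refine mul_le_mul (h.N_le_th w le_rfl) (Real.exp_le_exp.2 (by linarith))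
            (Real.exp_pos _).le hp
      have a2 : Real.exp 2 * q.ν₁ * Real.exp u * Real.exp 6 ≤
          (1 + q.ph.CT) * (q.ph.Cb * q.M₀) * Real.exp 10 := by
        have h3 := mul_le_mul_of_nonneg_right (H1.trans b1) (Real.exp_pos 6).le
        refine h3.trans (le_of_eq ?_)
        rw [mul_assoc, ← Real.exp_add]
        norm_num
      have a1 : q.ν₁ * Real.exp (u + 8) = Real.exp 2 * q.ν₁ * Real.exp u * Real.exp 6 := by
        rw [show u + 8 = 2 + u + 6 by ring, Real.exp_add, Real.exp_add]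
        ring
      have a3 : q.ν₁ * Real.exp (u + 8) < q.ν₁ * Real.exp q.R := by
        rw [a1]
        exact lt_of_le_of_lt a2 w.e1
      have a4 := Real.exp_lt_exp.1 (lt_of_mul_lt_mul_left a3 w.ν₁.le)
      rw [eth] at c1
      linarith
    · rcases le_or_gt (u + 2) (d.uta q) with c3 | c3
      · refine Or.inr ⟨c2.le, c3, Win.of h.Φs fun v hv => ?_⟩
        obtain ⟨v1, v2⟩ := abs_le.1 hv
        exact h.top.x1 v (by linarith) (by linarith)
      · exfalso
        have h2 := h.N_top w h1 (u := u) (by linarith) (by rw [etb]; linarith)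
        have h3 : q.nm * Real.exp u ≤ q.nm * Real.exp 8 * Real.exp u := by
          have h4 : 1 ≤ Real.exp 8 := Real.one_le_exp (by norm_num)
          have h5 : 0 ≤ q.nm * Real.exp u := mul_nonneg w.nm.le (Real.exp_pos _).le
          nlinarith
        have h4 : 1 ≤ Real.exp 2 := Real.one_le_exp (by norm_num)
        have h5 : 0 < deriv d.Φ u := lt_of_lt_of_le w.M₀ (h.N_ge u)
        nlinarith

end PkOk

end Vale.Agent.P088.R2.H31.EP
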